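import Vale.Agent.P273.H879.Fr2
import Vale.Agent.P273.H266.Neck1
import Vale.Agent.P273.H852.Region

/-!
P273, row NEG: the point of the one-node chart of a point of a region of 852.
-/

set_option linter.unusedSectionVars false
set_option linter.unusedSimpArgs false

noncomputable section

namespace Vale.Agent.P273.H879

open Set Filter MeasureTheory H95 H852 H732 H793 H973 H266
open H681 (C6)
open H828 (bv jo zz fam)
open scoped Topology ContDiff

/-- the integrand: one sheet of `Wf` at the point `P` of the 14-th power of the curve -/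
def ig (X : Ext) (Θ : Gauge) (T : MT) (b : C6) (v : Fin 2 → C6) (P : L → ℂ × ℂ) : ℝ :=
  wedgeT (GR X.G S0 (b, fun j => (P j).1) (fun j => (P j).2)) T
    (fun i => Θ.th i S0 (b, fun j => (P j).1) (fun j => (P j).2))
    (H811.vec (n := 28) (k := 2) vb v)

section

variable (R : H852.Reg L Unit) (R₀ : ℝ)

open Classical in
/-- the far core marks -/
def Sf (z : R.Kc → ℂ) (j : L) : Bool :=
  if h : ∀ k, R.A j ≠ Sum.inl k then decide (R₀ < ‖z ⟨j, h⟩‖) else false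

open Classical in
/-- the core coordinates in the charts -/
def zf (z : R.Kc → ℂ) (d : R.Kc) : ℂ := if R₀ < ‖z d‖ then (z d)⁻¹ else z d

/-- the point of the chart -/
def pt1 (k : Fin 5) (b : C6) (c l s : ℝ) (x : Cd R) : Co1 (to1 R) (m1 R) :=
  co1 R (2 * (l + Real.log c)) (-(2 * (Real.pi * s))) (bv k b) (x.1, zf R R₀ x.2)

/-- the `x` coordinates -/
def xq (k : Fin 5) (b : C6) (c l s : ℝ) (x : Cd R) (j : L) : ℂ :=
  (R.pos (nkD k b c l s) (R.tau (nkD k b c l s) x.1.1 x.1.2) x.2 j).1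

/-- the `y` coordinates -/
def yq (k : Fin 5) (b : C6) (c l s : ℝ) (x : Cd R) (j : L) : ℂ :=
  (R.pos (nkD k b c l s) (R.tau (nkD k b c l s) x.1.1 x.1.2) x.2 j).2

/-- the sheets in the charts -/
def vq (k : Fin 5) (b : C6) (c l s : ℝ) (x : Cd R) : L → ℂ :=
  flipv S0 (Sf R R₀ x.2) (xq R k b c l s x) (yq R k b c l s x)

end

section

variable {R : H852.Reg L Unit} {R₀ : ℝ}

theorem Sf_neck (z : R.Kc → ℂ) {j : L} (h : R.A j = Sum.inl ()) : Sf R R₀ z j = false := by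
  unfold Sf
  rw [dif_neg]
  intro h'
  exact h' () h

theorem Sf_core (z : R.Kc → ℂ) {j : L} {t : Bool} (h : R.A j = Sum.inr t) :
    Sf R R₀ z j = true ↔ R₀ < ‖z ⟨j, fun k hk => by rw [h] at hk; cases hk⟩‖ := by
  unfold Sf
  rw [dif_pos (fun k hk => by rw [h] at hk; cases hk)]
  simp

theorem Sf_true {z : R.Kc → ℂ} {j : L} (h : Sf R R₀ z j = true) :
    ∃ t, R.A j = Sum.inr t := by
  rcases h' : R.A j with k | t
  · rw [Sf_neck z h'] at h
    cases h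
  · exact ⟨t, rfl⟩

theorem xq_neck (k : Fin 5) (b : C6) (c l s : ℝ) (x : Cd R) {j : L} (h : R.A j = Sum.inl ()) :
    xq R k b c l s x j = (to1 R).pos (toSp c (pt1 R R₀ k b c l s x)) j := by
  have h1 := xpos_co1 R c (2 * (l + Real.log c)) (-(2 * (Real.pi * s))) (bv k b) (fun _ => 0)
    (fun _ => 0) (x.1, zf R R₀ x.2) j
  unfold pt1
  rw [← h1, xpos, xq, pos852_neck1 R _ _ _ h, pos852_neck1 R _ _ _ h]
  rfl

theorem xq_core (k : Fin 5) (b : C6) (c l s : ℝ) (x : Cd R) {j : L} {t : Bool}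
    (h : R.A j = Sum.inr t) :
    xq R k b c l s x j = x.2 ⟨j, fun k hk => by rw [h] at hk; cases hk⟩ := by
  rw [xq, pos852_core1 R _ _ _ h]

theorem yq_core (k : Fin 5) (b : C6) (c l s : ℝ) (x : Cd R) {j : L} {t : Bool}
    (h : R.A j = Sum.inr t) :
    yq R k b c l s x j = if t then csq (sx (rts (fam k b l s)) (xq R k b c l s x j)) else
      - csq (sx (rts (fam k b l s)) (xq R k b c l s x j)) := by
  rw [yq, xq_core k b c l s x h, pos852_core1 R _ _ _ h]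
  rfl

theorem pos_pt1_core (k : Fin 5) (b : C6) (c l s : ℝ) (x : Cd R) {j : L} {t : Bool}
    (h : R.A j = Sum.inr t) :
    (to1 R).pos (toSp c (pt1 R R₀ k b c l s x)) j =
      zf R R₀ x.2 ⟨j, fun k hk => by rw [h] at hk; cases hk⟩ := by
  rw [pos1_core _ ((to1_nk_false R).2 ⟨t, h⟩)]
  rfl

/-- **(P1)** -/
theorem pos_pt1 (k : Fin 5) (b : C6) (c l s : ℝ) (x : Cd R) (j : L) :
    (to1 R).pos (toSp c (pt1 R R₀ k b c l s x)) j =
      if Sf R R₀ x.2 j then (xq R k b c l s x j)⁻¹ else xq R k b c l s x j := by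
  rcases h : R.A j with u | t
  · have h' : R.A j = Sum.inl () := h
    rw [Sf_neck x.2 h', xq_neck (R₀ := R₀) k b c l s x h']
    simp
  · rw [pos_pt1_core k b c l s x h, xq_core k b c l s x h, zf]
    by_cases h1 : R₀ < ‖x.2 ⟨j, fun k hk => by rw [h] at hk; cases hk⟩‖
    · rw [if_pos h1, (Sf_core x.2 h).2 h1, if_pos rfl]
    · have h2 : ¬ Sf R R₀ x.2 j = true := fun h2 => h1 ((Sf_core x.2 h).1 h2)
      rw [if_neg h1, if_neg h2]

/-- **(P2)** -/
theorem sht_pt1 (k : Fin 5) (b : C6) (c l s : ℝ) (x : Cd R) (j : L) :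
    (to1 R).sht (toSp c (pt1 R R₀ k b c l s x)) (gv k b) (vq R R₀ k b c l s x) j =
      vq R R₀ k b c l s x j := by
  rcases h : R.A j with u | t
  · have h' : R.A j = Sum.inl () := h
    have h1 := sht_co1 R c (2 * (l + Real.log c)) (-(2 * (Real.pi * s))) (bv k b)
      (fun x => csq (sx (rts (fam k b l s)) x)) (gv k b) (vq R R₀ k b c l s x)
      (x.1, zf R R₀ x.2) h' x.2
    unfold pt1
    rw [← h1, vq, flipv, Sf_neck x.2 h', if_pos rfl]
    rfl
  · rw [Region1.sht, if_neg (by simp [(to1_nk_false R).2 ⟨t, h⟩])]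

end

/-- **(P3)**, target of 266: the point is in the region of `Asy1`. -/
def InRegOf : Prop := ∀ (k : Fin 5) (K : Set C6), K ⊆ H828.XD k → IsCompact K → ∃ c₀ > 0, ∀ c,
  0 < c → c ≤ c₀ → ∃ R₁ > 0, ∀ R₀ ≥ R₁, ∀ M₀ : ℝ, ∃ M₁ : ℝ, ∀ b ∈ K, ∀ l s : ℝ,
    s ∈ Icc (0 : ℝ) 1 → M₁ ≤ 2 * (l + Real.log c) → ∀ (R : H852.Reg L Unit) (x : Cd R),
      x.1.1 ∈ R.dom (nkD k b c l s) → x.1.2 ∈ R.box → (∀ d, x.2 d ∈ (nkD k b c l s).core) →
      (∀ d i, x.2 d ≠ fam k b l s i) →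
      (∀ i, R.U (nkD k b c l s) (R.tau (nkD k b c l s) x.1.1 x.1.2) () i ≠
        R.V (nkD k b c l s) (R.tau (nkD k b c l s) x.1.1 x.1.2) () i) →
      InReg k K c R₀ M₀ (Sf R R₀ x.2) (pt1 R R₀ k b c l s x) (gv k b) (vq R R₀ k b c l s x)

/-- the constant of the measure half -/
def Nw (w : ℂ → ℝ) : ℝ :=
  ∑ R : H852.Reg L Unit, (4 * Real.pi) ^ (Fintype.card R.Gf) * (∫ z, w z) ^ (Fintype.card R.Kc)

/-- **(B)**, target of 752: the measure half (120's I4c). -/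
def PhiLe : Prop := ∀ (X : Ext) (Θ : Gauge) (T : MT), SymT T → ∀ b ∈ H681.XX, ∀ v : Fin 2 → C6,
  ∀ D : Necks Unit, D.Good → (∀ x, D.s x = csq (sx (rts b) x)) → 1 ≤ D.Y () →
  ∀ (w : ℂ → ℝ), (∀ z, 0 ≤ w z) → Integrable w → ∀ A : ℝ, 0 ≤ A →
    (∀ R : H852.Reg L Unit, ∀ᵐ x ∂(R.meas D),
      R.jac D (R.tau D x.1.1 x.1.2) * |ig X Θ T b v (R.pos D (R.tau D x.1.1 x.1.2) x.2)| ≤
        A * (∏ g, max (Real.exp (-x.1.1 g)) (D.Y ())⁻¹) * ∏ d, w (x.2 d)) →
    |PhiF X Θ T b v| ≤ A * Nw w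

end Vale.Agent.P273.H879
end
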