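import Vale.Agent.P273.H95.Wall
import Vale.Agent.P273.H732.Word
import Vale.Agent.P273.H828.AnnDefs

/-!
P273, row NEG: the logarithmic chart of a one-node region (95's `Region1`, 732's `wreg`), the literal
input `Asy1` of NEG from the gauge, and the statement `NegOf` of the row.

Base coordinates: `e` = centre of the small pair (`inr 0`), the other roots (`inr 1, .., inr 4`); the
neck has `U V = ε = c^2 exp (-y + α I)`, `|U|, |V| < c`.
-/

noncomputable section

namespace Vale.Agent.P273.H879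

open Set Filter MeasureTheory H95
open scoped Topology ContDiff

/-- The number of the root `j` among the other four roots. -/
def oj (k : Fin 5) (j : Fin 6) : Fin 4 := ⟨if j.1 < k.1 then j.1 else j.1 - 2, by split_ifs <;> omega⟩

section Chart

variable (R : Region1) (m : Fin (R.n + 1))

/-- The chart of 732: one neck, eliminated gap `m`. -/
abbrev wr := H732.wreg (fun _ : Unit => R.n) (fun _ => m)
/-- Log coordinates `(u, φ, y, α, (core marks, base))`. -/
abbrev Co1 := (wr R m).Co (R.Cm ⊕ Fin 5)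
/-- Directions. -/
abbrev Dir1 := (wr R m).Dir (R.Cm ⊕ Fin 5)

variable {R m}

/-- The first and the last gap carry the radius `c` of the neck. -/
def cw1 (c : ℝ) (g : Fin (R.n + 1)) : ℂ :=
  (if g = 0 then (c : ℂ) else 1) * (if g = Fin.last R.n then (c : ℂ) else 1)

/-- Log coordinates to the coordinates of the region. -/
def toSp (c : ℝ) (p : Co1 R m) : R.Sp :=
  (fun g => cw1 c g * (wr R m).tau p ⟨(), g⟩, p.2.2.2.2)

/-- Half difference of the small pair, `zh^2 = ε`. -/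
def zh (c : ℝ) (p : Co1 R m) : ℂ :=
  c * Complex.exp ((-(p.2.2.1 () : ℂ) + (p.2.2.2.1 () : ℂ) * Complex.I) / 2)

/-- Log coordinates to roots and marks (in the charts `S` of the marks). -/
def toE (k : Fin 5) (c : ℝ) (p : Co1 R m) : E :=
  (H828.pr k (fun j => R.oth (toSp c p) (oj k j)) (R.ctr (toSp c p)) (zh c p), R.pos (toSp c p))

/-- The cost of a direction, `M = y` = length of the neck: a leg on a gap of size `u` costs the
square root of `max (exp (-u)) (1/M)`, the angle of `ε` costs `M^(-1/2)`, the radial direction (the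
Euler vector) `1/M`, all others `1`. -/
def cst (p : Co1 R m) : Dir1 R m → ℝ
  | .u f => Real.sqrt (max (Real.exp (-p.1 f)) (p.2.2.1 ())⁻¹)
  | .ph f => Real.sqrt (max (Real.exp (-p.1 f)) (p.2.2.1 ())⁻¹)
  | .y _ => (p.2.2.1 ())⁻¹
  | .al _ => Real.sqrt (p.2.2.1 ())⁻¹
  | .re _ => 1
  | .im _ => 1

/-- The vector of a direction; the radial one is the Euler vector of 732. -/
def evec (p : Co1 R m) (d : Dir1 R m) : Co1 R m :=
  match d with
  | .y _ => (wr R m).eul p ()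
  | d => (wr R m).vec d

/-- The points of the region over the compact set `K` of merged configurations, `y ≥ M₀`. -/
structure InReg (k : Fin 5) (K : Set H681.C6) (c R₀ M₀ : ℝ) (S : L → Bool) (p : Co1 R m) (g : ℂ)
    (v : L → ℂ) : Prop where
  far : ∀ j, S j = true → R.nk j = false
  base : H828.pr k (fun j => R.oth (toSp c p) (oj k j)) (R.ctr (toSp c p)) 0 ∈ K
  y : M₀ ≤ p.2.2.1 ()
  al : -(2 * Real.pi) ≤ p.2.2.2.1 () ∧ p.2.2.2.1 () ≤ 0
  inr : (wr R m).Inr p
  ph : ∀ f, p.2.1 f ∈ Icc (-Real.pi) Real.pi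
  zone : ∀ j, R.nk j = false → if S j then ‖R.pos (toSp c p) j‖ ≤ R₀⁻¹
    else ‖R.pos (toSp c p) j‖ ≤ R₀ ∧ c / 4 ≤ ‖R.pos (toSp c p) j - R.ctr (toSp c p)‖
  sheet : R.isSheet S (toSp c p) g v
  std : R.isStd (toSp c p) g v

/-- Two marks are within `r` of each other. -/
def Close (r : ℝ) (S : L → Bool) (p : R.Sp) (g : ℂ) (v : L → ℂ) (i j : L) : Prop :=
  if R.nk i = true ∧ R.nk j = true then R.rk i < R.rk j ∧
    ‖(∏ a : Fin (R.n + 1), (if R.rk i < (a : ℕ) ∧ (a : ℕ) ≤ R.rk j then p.1 a else 1)) - 1‖ < r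
  else if S i = S j then ‖R.pos p i - R.pos p j‖ < r ∧ ‖R.sht p g v i - R.sht p g v j‖ < r
  else ‖R.pos p i * R.pos p j - 1‖ < r ∧ ‖R.sht p g v j - R.sht p g v i * R.pos p j ^ 3‖ < r

end Chart

/-- An adapted basis of the pair `k`: `1` = the vanishing class `dk k`, `0` = the dual direction,
`2, 3` = the others. -/
def IsAd (k : Fin 5) (b : Module.Basis (Fin 4) ℝ H4) : Prop :=
  b 1 = dk k ∧ om (dk k) (b 0) ≠ 0 ∧ om (dk k) (b 2) = 0 ∧ om (dk k) (b 3) = 0

/-- **Input of NEG from the gauge**: bounds of the forms `θ_j` near the divisor where the roots `k`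
and `k+1` coincide, uniform over compact sets of merged configurations. The radius `c` of the neck
is small, the radius `R₀` of the core is large. -/
def Asy1 (Θ : Gauge) : Prop := ∀ k : Fin 5, ∀ b : Module.Basis (Fin 4) ℝ H4, IsAd k b →
  ∀ K ⊆ H828.XD k, IsCompact K → ∃ c₀ > 0, ∀ c, 0 < c → c ≤ c₀ → ∃ R₁ > 0, ∀ R₀ ≥ R₁,
  ∃ (M₀ B r : ℝ), 0 < M₀ ∧ 0 < B ∧ 0 < r ∧
  ∀ (R : Region1) (m : Fin (R.n + 1)) (S : L → Bool) (p : Co1 R m) (g : ℂ) (v : L → ℂ),
    InReg k K c R₀ M₀ S p g v →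
    -- bounds leg by leg, in the scaled frame
    (∀ (i : Fin 14) (d : Dir1 R m),
      |b.repr (Θ.th i S (toE k c p) (R.sht (toSp c p) g v) (fderiv ℝ (toE k c) p (evec p d))) 1|
        ≤ B * Real.sqrt (p.2.2.1 ()) * cst p d ∧
      |b.repr (Θ.th i S (toE k c p) (R.sht (toSp c p) g v) (fderiv ℝ (toE k c) p (evec p d))) 0|
        ≤ B * (Real.sqrt (p.2.2.1 ()))⁻¹ * cst p d ∧
      |b.repr (Θ.th i S (toE k c p) (R.sht (toSp c p) g v) (fderiv ℝ (toE k c) p (evec p d))) 2|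
        ≤ B * cst p d ∧
      |b.repr (Θ.th i S (toE k c p) (R.sht (toSp c p) g v) (fderiv ℝ (toE k c) p (evec p d))) 3|
        ≤ B * cst p d) ∧
    -- zero near the other roots
    (∀ i : Fin 14, R.nk (mrk i) = false → S (mrk i) = false →
      (∃ l, ‖R.pos (toSp c p) (mrk i) - R.oth (toSp c p) l‖ < r) →
      Θ.th i S (toE k c p) (R.sht (toSp c p) g v) = 0) ∧
    -- same type marks close to each other have the same form
    ∀ i j : Fin 14, i ≠ j → (mrk i).2 = (mrk j).2 → Close r S (toSp c p) g v (mrk i) (mrk j) →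
      Θ.th i S (toE k c p) (R.sht (toSp c p) g v) = Θ.th j S (toE k c p) (R.sht (toSp c p) g v)

/-- **Row NEG.** Consumed as `Neg (loc X Θ)`. -/
def NegOf : Prop := ∀ (X : Ext) (Θ : Gauge), Asy1 Θ →
  ∀ (k : Fin 5) (v : MT), SymT v → (∀ x : Fin 14 → H4, v (fun i => sH k (x i)) = v x) →
  ∀ K ⊆ H828.XD k, IsCompact K →
    ∃ (l₀ : ℝ) (g ε : ℝ → ℝ), 0 ≤ l₀ ∧ IntegrableOn g (Ici l₀) ∧ Tendsto g atTop (𝓝 0) ∧
      Tendsto ε atTop (𝓝 0) ∧ ∀ b ∈ K, ∀ l ≥ l₀, ∀ s ∈ Icc (0 : ℝ) 1, H828.fam k b l s ∈ H681.XX ∧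
        ‖PhiF X Θ v (H828.fam k b l s) ![H828.pr k 0 0 (-H828.zz l s),
          H828.pr k 0 0 (-(Real.pi * Complex.I) * H828.zz l s)]‖ ≤ g l ∧
        ∀ w : H681.C6, w k.castSucc = w k.succ →
          ‖PhiF X Θ v (H828.fam k b l s)
            ![H828.pr k 0 0 (-(Real.pi * Complex.I) * H828.zz l s), w]‖ ≤ ε l * ‖w‖

end Vale.Agent.P273.H879
end
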