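import Vale.Agent.P273.H879.Neg2
import Vale.Agent.P273.H266.InReg1
import Vale.Agent.P273.H120.PhiLe

/-!
P273, **row NEG is proved**: `NegOf` (the decay of `Φ` near the divisors where two roots collide).
-/

noncomputable section

namespace Vale.Agent.P273.H879

theorem keyNeg : H828.KeyNeg := keyNeg_of H266.inRegOf H120.phiLe

/-- **Row NEG.** -/
theorem negOf : NegOf := negOf_of_inputs H266.inRegOf H120.phiLe

end Vale.Agent.P273.H879
end
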