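import Vale.Agent.P273.H973.Omega

/-!
Bounds for the form F ∧ T(θ_1,...,θ_q) on a frame, leg by leg: every vector w_i of the frame has a
cost c_i, F and all the scaled one-forms are bounded by the cost of the vectors they take.
-/

open Finset Function

namespace Vale.Agent.P273.H879

noncomputable section

open H973

variable {E H G : Type*} [NormedAddCommGroup E] [NormedSpace ℝ E]
  [NormedAddCommGroup H] [NormedSpace ℝ H] [NormedAddCommGroup G] [NormedSpace ℝ G]

/-- The constant of the wedge bound. -/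
def wc (p q : ℕ) : ℝ := ((p.factorial : ℝ)⁻¹) * ((p + q).factorial : ℝ)

theorem wc_nonneg (p q : ℕ) : 0 ≤ wc p q := by unfold wc; positivity

theorem prod_split {p q : ℕ} (c : Fin (p + q) → ℝ) (σ : Equiv.Perm (Fin (p + q))) :
    (∏ i : Fin p, c (σ (Fin.castAdd q i))) * ∏ j : Fin q, c (σ (Fin.natAdd p j)) = ∏ i, c i := by
  rw [← Equiv.prod_comp σ c, Fin.prod_univ_add]

/-- **Leg by leg bound.** -/
theorem norm_wedgeT_le {p q : ℕ} (F : E [⋀^Fin p]→L[ℝ] ℝ)
    (T : ContinuousMultilinearMap ℝ (fun _ : Fin q => H) G) (θ : Fin q → E →L[ℝ] H)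
    (w : Fin (p + q) → E) (c : Fin (p + q) → ℝ) (hc : ∀ i, 0 ≤ c i) {A B : ℝ} (hA : 0 ≤ A)
    (hF : ∀ I : Fin p → Fin (p + q), Injective I → |F (fun i => w (I i))| ≤ A * ∏ i, c (I i))
    (hT : ∀ J : Fin q → Fin (p + q), Injective J →
      ‖T (fun j => θ j (w (J j)))‖ ≤ B * ∏ j, c (J j)) :
    ‖wedgeT F T θ w‖ ≤ wc p q * (A * B) * ∏ i, c i := by
  have hp : 0 ≤ ((p.factorial : ℝ)⁻¹) := by positivity
  have key : ∀ σ : Equiv.Perm (Fin (p + q)), ‖Equiv.Perm.sign σ •
      (F (fun i => w (σ (Fin.castAdd q i))) • T (fun j => θ j (w (σ (Fin.natAdd p j)))))‖ ≤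
      A * B * ∏ i, c i := by
    intro σ
    have h0 : ∀ x : G, ‖Equiv.Perm.sign σ • x‖ = ‖x‖ := by
      intro x
      rcases Int.units_eq_one_or (Equiv.Perm.sign σ) with h | h
      · rw [h, one_smul]
      · rw [h]
        simp
    rw [h0, norm_smul, Real.norm_eq_abs]
    have h1 := hF (fun i => σ (Fin.castAdd q i))
      (σ.injective.comp (Fin.castAdd_injective p q))
    have h2 := hT (fun j => σ (Fin.natAdd p j))
      (σ.injective.comp (Fin.natAdd_injective q p))
    calc |F (fun i => w (σ (Fin.castAdd q i)))| * ‖T (fun j => θ j (w (σ (Fin.natAdd p j))))‖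
        ≤ (A * ∏ i, c (σ (Fin.castAdd q i))) * (B * ∏ j, c (σ (Fin.natAdd p j))) :=
          mul_le_mul h1 h2 (norm_nonneg _)
            (mul_nonneg hA (Finset.prod_nonneg fun i _ => hc _))
      _ = A * B * ((∏ i : Fin p, c (σ (Fin.castAdd q i))) *
            ∏ j : Fin q, c (σ (Fin.natAdd p j))) := by ring
      _ = A * B * ∏ i, c i := by rw [prod_split]
  rw [wedgeT_apply, norm_smul, Real.norm_of_nonneg hp]
  calc ((p.factorial : ℝ)⁻¹) * ‖∑ σ : Equiv.Perm (Fin (p + q)), Equiv.Perm.sign σ •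
        (F (fun i => w (σ (Fin.castAdd q i))) • T (fun j => θ j (w (σ (Fin.natAdd p j)))))‖
      ≤ ((p.factorial : ℝ)⁻¹) * ∑ _σ : Equiv.Perm (Fin (p + q)), A * B * ∏ i, c i :=
        mul_le_mul_of_nonneg_left ((norm_sum_le _ _).trans (Finset.sum_le_sum fun σ _ => key σ)) hp
    _ = wc p q * (A * B) * ∏ i, c i := by
        rw [Finset.sum_const, Finset.card_univ, Fintype.card_perm, Fintype.card_fin, nsmul_eq_mul,
          wc]
        ring

/-- **Leg by leg bound with a scaled frame**: `g` is the scaling of the frame, `g'` its inverse,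
`K` bounds the scaled tensor, `b` the scaled one-forms. -/
theorem norm_wedgeT_le_scaled {p q : ℕ} (F : E [⋀^Fin p]→L[ℝ] ℝ)
    (T : ContinuousMultilinearMap ℝ (fun _ : Fin q => H) G) (θ : Fin q → E →L[ℝ] H)
    (w : Fin (p + q) → E) (c : Fin (p + q) → ℝ) (hc : ∀ i, 0 ≤ c i)
    (g g' : H → H) (hg : ∀ x, g (g' x) = x) {A K b : ℝ} (hA : 0 ≤ A) (hK : 0 ≤ K)
    (hT : ∀ x : Fin q → H, ‖T (fun j => g (x j))‖ ≤ K * ∏ j, ‖x j‖)
    (hF : ∀ I : Fin p → Fin (p + q), Injective I → |F (fun i => w (I i))| ≤ A * ∏ i, c (I i))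
    (hθ : ∀ j i, ‖g' (θ j (w i))‖ ≤ b * c i) :
    ‖wedgeT F T θ w‖ ≤ wc p q * (A * (K * b ^ q)) * ∏ i, c i := by
  refine norm_wedgeT_le F T θ w c hc hA hF fun J _ => ?_
  have h1 : (fun j => θ j (w (J j))) = fun j => g (g' (θ j (w (J j)))) := by
    funext j; rw [hg]
  rw [h1]
  calc ‖T (fun j => g (g' (θ j (w (J j)))))‖ ≤ K * ∏ j, ‖g' (θ j (w (J j)))‖ := hT _
    _ ≤ K * ∏ j, (b * c (J j)) := by
        refine mul_le_mul_of_nonneg_left ?_ hK
        exact Finset.prod_le_prod (fun j _ => norm_nonneg _) fun j _ => hθ j (J j)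
    _ = K * b ^ q * ∏ j, c (J j) := by
        rw [Finset.prod_mul_distrib, Finset.prod_const, Finset.card_univ, Fintype.card_fin]
        ring

end

end Vale.Agent.P273.H879
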