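import Vale.Agent.P273.H266.Wt
import Vale.Agent.P273.H879.Wedge

/-!
The symplectic scaling: a form on H^n fixed by a transvection is bounded on the scaled frames, so
F ∧ T(θ_1,...,θ_n) is bounded leg by leg by the scaled one-forms.
-/

open Finset Function

namespace Vale.Agent.P273.H879

noncomputable section

open H973 H266

variable {E H : Type*} [NormedAddCommGroup E] [NormedSpace ℝ E]
  [NormedAddCommGroup H] [NormedSpace ℝ H] [FiniteDimensional ℝ H]

/-- scaling of the frame: `q` is multiplied by `r`, `p` by `r⁻¹` -/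
def up (b : Module.Basis (Fin 4) ℝ H) (p q : Fin 4) (r : ℝ) (x : H) : H :=
  ∑ k, b.repr x k • scl p q r b k

/-- the inverse scaling -/
def dn (b : Module.Basis (Fin 4) ℝ H) (p q : Fin 4) (r : ℝ) (x : H) : H :=
  ∑ k, ((if k = q then r⁻¹ else if k = p then r else 1) * b.repr x k) • b k

theorem up_dn (b : Module.Basis (Fin 4) ℝ H) {p q : Fin 4} (hpq : p ≠ q) {r : ℝ} (hr : r ≠ 0)
    (x : H) : up b p q r (dn b p q r x) = x := by
  have h1 : ∀ k, b.repr (dn b p q r x) k =
      (if k = q then r⁻¹ else if k = p then r else 1) * b.repr x k := by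
    intro k
    have h := congrFun (b.repr_sum_self fun k =>
      (if k = q then r⁻¹ else if k = p then r else 1) * b.repr x k) k
    exact h
  rw [up]
  simp_rw [h1]
  conv_rhs => rw [← b.sum_repr x]
  refine Finset.sum_congr rfl fun k _ => ?_
  rw [scl, smul_smul]
  congr 1
  by_cases h2 : k = q
  · simp only [h2, if_true]
    field_simp
  · by_cases h3 : k = p
    · simp only [h3, if_neg hpq, if_true]
      field_simp
    · simp [h2, h3]

/-- bound of the coordinate functionals and of the basis -/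
def cb (b : Module.Basis (Fin 4) ℝ H) : ℝ :=
  (∑ k, ‖LinearMap.toContinuousLinearMap (b.coord k)‖) + ∑ k, ‖b k‖

theorem cb_nonneg (b : Module.Basis (Fin 4) ℝ H) : 0 ≤ cb b := by unfold cb; positivity

theorem abs_repr_le (b : Module.Basis (Fin 4) ℝ H) (x : H) (k : Fin 4) :
    |b.repr x k| ≤ cb b * ‖x‖ := by
  have h1 : b.repr x k = LinearMap.toContinuousLinearMap (b.coord k) x := rfl
  rw [h1, ← Real.norm_eq_abs]
  refine (ContinuousLinearMap.le_opNorm _ x).trans ?_
  refine mul_le_mul_of_nonneg_right ?_ (norm_nonneg _)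
  have h2 : ‖LinearMap.toContinuousLinearMap (b.coord k)‖ ≤
      ∑ k, ‖LinearMap.toContinuousLinearMap (b.coord k)‖ :=
    Finset.single_le_sum (f := fun k => ‖LinearMap.toContinuousLinearMap (b.coord k)‖)
      (fun k _ => norm_nonneg _) (Finset.mem_univ k)
  have h3 : 0 ≤ ∑ k, ‖b k‖ := Finset.sum_nonneg fun k _ => norm_nonneg _
  unfold cb
  linarith

theorem norm_basis_le (b : Module.Basis (Fin 4) ℝ H) (k : Fin 4) : ‖b k‖ ≤ cb b := by
  have h2 : ‖b k‖ ≤ ∑ k, ‖b k‖ :=
    Finset.single_le_sum (f := fun k => ‖b k‖) (fun k _ => norm_nonneg _) (Finset.mem_univ k)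
  have h3 : 0 ≤ ∑ k, ‖LinearMap.toContinuousLinearMap (b.coord k)‖ :=
    Finset.sum_nonneg fun k _ => norm_nonneg _
  unfold cb
  linarith

/-- The constant of the scaling bound. -/
def sK (n : ℕ) (b : Module.Basis (Fin 4) ℝ H) : ℝ := (Fintype.card (Fin n → Fin 4) : ℝ) *
  (cb b ^ n * cb b ^ n)

theorem sK_nonneg (n : ℕ) (b : Module.Basis (Fin 4) ℝ H) : 0 ≤ sK n b := by
  have := cb_nonneg b
  unfold sK; positivity

/-- **A form fixed by the transvection is bounded on the scaled frames**, uniformly in the scale. -/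
theorem abs_up_le {n : ℕ} (T : ContinuousMultilinearMap ℝ (fun _ : Fin n => H) ℝ)
    (b : Module.Basis (Fin 4) ℝ H) (s : H → H) {p q : Fin 4} (hpq : p ≠ q) {c : ℝ} (hc : c ≠ 0)
    (hs : ∀ k, s (b k) = b k + if k = p then c • b q else 0)
    (hT : ∀ x : Fin n → H, T (fun i => s (x i)) = T x) {r : ℝ} (hr : 1 ≤ r) (x : Fin n → H) :
    ‖T (fun j => up b p q r (x j))‖ ≤ (sK n b * ‖T‖) * ∏ j, ‖x j‖ := by
  classical
  have h0 : T (fun j => up b p q r (x j)) = ∑ τ : Fin n → Fin 4,
      T (fun j => b.repr (x j) (τ j) • scl p q r b (τ j)) := by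
    have := T.toMultilinearMap.map_sum (fun (j : Fin n) (k : Fin 4) =>
      b.repr (x j) k • scl p q r b k)
    simpa [up] using this
  have h1 : ∀ τ : Fin n → Fin 4, ‖T (fun j => b.repr (x j) (τ j) • scl p q r b (τ j))‖ ≤
      cb b ^ n * cb b ^ n * ‖T‖ * ∏ j, ‖x j‖ := by
    intro τ
    have h2 : T (fun j => b.repr (x j) (τ j) • scl p q r b (τ j)) =
        (∏ j, b.repr (x j) (τ j)) • T (fun j => scl p q r b (τ j)) :=
      T.map_smul_univ _ _
    rw [h2, norm_smul]
    have h3 : ‖T (fun j => scl p q r b (τ j))‖ ≤ ‖T‖ * cb b ^ n := by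
      have h4 := scaled_bound T.toMultilinearMap b s hpq hc hs hT hr τ
      have h5 : ‖T (fun j => scl p q r b (τ j))‖ ≤ ‖T (fun j => b (τ j))‖ := by
        simpa [Real.norm_eq_abs] using h4
      refine h5.trans ((T.le_opNorm _).trans ?_)
      refine mul_le_mul_of_nonneg_left ?_ (norm_nonneg _)
      calc ∏ j, ‖b (τ j)‖ ≤ ∏ _j : Fin n, cb b :=
            Finset.prod_le_prod (fun j _ => norm_nonneg _) fun j _ => norm_basis_le b _
        _ = cb b ^ n := by rw [Finset.prod_const, Finset.card_univ, Fintype.card_fin]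
    have h6 : ‖∏ j, b.repr (x j) (τ j)‖ ≤ cb b ^ n * ∏ j, ‖x j‖ := by
      rw [norm_prod]
      calc ∏ j, ‖b.repr (x j) (τ j)‖ ≤ ∏ j, (cb b * ‖x j‖) :=
            Finset.prod_le_prod (fun j _ => norm_nonneg _) fun j _ => abs_repr_le b _ _
        _ = cb b ^ n * ∏ j, ‖x j‖ := by
            rw [Finset.prod_mul_distrib, Finset.prod_const, Finset.card_univ, Fintype.card_fin]
    have h7 := cb_nonneg b
    calc ‖∏ j, b.repr (x j) (τ j)‖ * ‖T (fun j => scl p q r b (τ j))‖
        ≤ (cb b ^ n * ∏ j, ‖x j‖) * (‖T‖ * cb b ^ n) :=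
          mul_le_mul h6 h3 (norm_nonneg _) (by positivity)
      _ = cb b ^ n * cb b ^ n * ‖T‖ * ∏ j, ‖x j‖ := by ring
  rw [h0]
  calc ‖∑ τ : Fin n → Fin 4, T (fun j => b.repr (x j) (τ j) • scl p q r b (τ j))‖
      ≤ ∑ _τ : Fin n → Fin 4, cb b ^ n * cb b ^ n * ‖T‖ * ∏ j, ‖x j‖ :=
        (norm_sum_le _ _).trans (Finset.sum_le_sum fun τ _ => h1 τ)
    _ = (sK n b * ‖T‖) * ∏ j, ‖x j‖ := by
        rw [Finset.sum_const, Finset.card_univ, nsmul_eq_mul, sK]
        ring

theorem norm_dn_le (b : Module.Basis (Fin 4) ℝ H) {p q : Fin 4} (hpq : p ≠ q) {r B c : ℝ}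
    (hr : 0 < r) {x : H} (hq : |b.repr x q| ≤ B * r * c) (hp : |b.repr x p| ≤ B * r⁻¹ * c)
    (ho : ∀ k, k ≠ p → k ≠ q → |b.repr x k| ≤ B * c) :
    ‖dn b p q r x‖ ≤ (B * (4 * cb b)) * c := by
  have h1 : ∀ k, ‖((if k = q then r⁻¹ else if k = p then r else 1) * b.repr x k) • b k‖ ≤
      B * c * cb b := by
    intro k
    rw [norm_smul]
    have h2 : ‖(if k = q then r⁻¹ else if k = p then r else 1) * b.repr x k‖ ≤ B * c := by
      rw [norm_mul, Real.norm_eq_abs, Real.norm_eq_abs]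
      by_cases h3 : k = q
      · simp only [h3, if_true]
        rw [abs_of_pos (inv_pos.2 hr)]
        calc r⁻¹ * |b.repr x q| ≤ r⁻¹ * (B * r * c) :=
              mul_le_mul_of_nonneg_left hq (inv_pos.2 hr).le
          _ = B * c := by field_simp
      · by_cases h4 : k = p
        · simp only [h4, if_neg hpq, if_true]
          rw [abs_of_pos hr]
          calc r * |b.repr x p| ≤ r * (B * r⁻¹ * c) := mul_le_mul_of_nonneg_left hp hr.le
            _ = B * c := by field_simp
        · simp only [h3, h4, if_false, abs_one, one_mul]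
          exact ho k h4 h3
    have h5 := norm_basis_le b k
    exact mul_le_mul h2 h5 (norm_nonneg _) ((norm_nonneg _).trans h2)
  calc ‖dn b p q r x‖ ≤ ∑ _k : Fin 4, B * c * cb b :=
        (norm_sum_le _ _).trans (Finset.sum_le_sum fun k _ => h1 k)
    _ = (B * (4 * cb b)) * c := by
        rw [Finset.sum_const, Finset.card_univ, Fintype.card_fin, nsmul_eq_mul]
        push_cast
        ring

/-- **The wedge bound with the symplectic scaling** (NEG, and the same for the tori and the annuli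
with another bound of `T` on the scaled frames): legs of `F` cost `c`, the one-forms cost `r c` in
the vanishing direction `q`, `r⁻¹ c` in the dual direction `p`, `c` in the others. -/
theorem norm_wedgeT_le_fixed {m n : ℕ} (F : E [⋀^Fin m]→L[ℝ] ℝ)
    (T : ContinuousMultilinearMap ℝ (fun _ : Fin n => H) ℝ) (θ : Fin n → E →L[ℝ] H)
    (w : Fin (m + n) → E) (c : Fin (m + n) → ℝ) (hc : ∀ i, 0 ≤ c i)
    (b : Module.Basis (Fin 4) ℝ H) (s : H → H) {p q : Fin 4} (hpq : p ≠ q) {κ : ℝ} (hκ : κ ≠ 0)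
    (hs : ∀ k, s (b k) = b k + if k = p then κ • b q else 0)
    (hT : ∀ x : Fin n → H, T (fun i => s (x i)) = T x) {r : ℝ} (hr : 1 ≤ r) {A B : ℝ}
    (hA : 0 ≤ A)
    (hF : ∀ I : Fin m → Fin (m + n), Injective I → |F (fun i => w (I i))| ≤ A * ∏ i, c (I i))
    (hq : ∀ j i, |b.repr (θ j (w i)) q| ≤ B * r * c i)
    (hp : ∀ j i, |b.repr (θ j (w i)) p| ≤ B * r⁻¹ * c i)
    (ho : ∀ j i k, k ≠ p → k ≠ q → |b.repr (θ j (w i)) k| ≤ B * c i) :
    ‖wedgeT F T θ w‖ ≤ wc m n * (A * (sK n b * ‖T‖ * (B * (4 * cb b)) ^ n)) * ∏ i, c i := by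
  have hr0 : 0 < r := by linarith
  refine norm_wedgeT_le_scaled F T θ w c hc (up b p q r) (dn b p q r)
    (up_dn b hpq hr0.ne') hA (mul_nonneg (sK_nonneg n b) (norm_nonneg _))
    (fun x => abs_up_le T b s hpq hκ hs hT hr x) hF fun j i => ?_
  exact norm_dn_le b hpq hr0 (hq j i) (hp j i) fun k h1 h2 => ho j i k h1 h2

end

end Vale.Agent.P273.H879
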