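import Vale.Agent.P273.H879.OneNode
import Vale.Agent.P273.H879.Scale

/-!
P273, row NEG, part (a): the form `F ∧ T(θ_1,...,θ_14)` in the logarithmic chart of a one-node
region is bounded by the product of the costs of the directions.
-/

noncomputable section

namespace Vale.Agent.P273.H879

open Set Filter MeasureTheory H95 H973
open scoped Topology ContDiff

/-- **(b)** the geometric bound by compactness. -/
def CptOf (X : Ext) : Prop := ∀ k : Fin 5, ∀ K ⊆ H828.XD k, IsCompact K →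
  ∃ c₀ > 0, ∀ c, 0 < c → c ≤ c₀ → ∃ R₁ > 0, ∀ R₀ ≥ R₁, ∀ r > 0, ∃ (M₁ CF : ℝ),
  0 ≤ CF ∧ ∀ (R : Region1) (m : Fin (R.n + 1)) (S : L → Bool) (p : Co1 R m) (g : ℂ) (v : L → ℂ),
    InReg k K c R₀ M₁ S p g v →
    (∀ i j : Fin 14, i ≠ j → (mrk i).2 = (mrk j).2 →
      ¬ Close r S (toSp c p) g v (mrk i) (mrk j)) →
    (∀ i : Fin 14, R.nk (mrk i) = false → S (mrk i) = false →
      ∀ l, r ≤ ‖R.pos (toSp c p) (mrk i) - R.oth (toSp c p) l‖) →
    R.ok S (toSp c p) g v ∧ ‖X.H1 R S (toSp c p) g v‖ ≤ CF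

/-- **(c1)** the chart pulls the interior form back to the form of the region. -/
def PullOf : Prop := ∀ (X : Ext) (k : Fin 5) (R : Region1) (m : Fin (R.n + 1)) (S : L → Bool)
  (c : ℝ) (p : Co1 R m) (g : ℂ) (v : L → ℂ), (∀ j, S j = true → R.nk j = false) →
    R.ok S (toSp c p) g v → R.isStd (toSp c p) g v →
    (GR X.G S (toE k c p) (R.sht (toSp c p) g v)).compContinuousLinearMap (fderiv ℝ (toE k c) p) =
      (X.H1 R S (toSp c p) g v).compContinuousLinearMap (fderiv ℝ (toSp c) p)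

/-- **(c1)** costs of the directions in the coordinates of the region. -/
def DerOf : Prop := ∀ c : ℝ, 0 < c → ∃ C1 : ℝ, 0 ≤ C1 ∧ ∀ (R : Region1) (m : Fin (R.n + 1))
  (p : Co1 R m) (d : Dir1 R m), (wr R m).Inr p → 1 ≤ p.2.2.1 () →
    ‖fderiv ℝ (toSp c) p (evec p d)‖ ≤ C1 * cst p d

variable {R : Region1} {m : Fin (R.n + 1)}

theorem cst_nonneg (p : Co1 R m) (hy : 0 ≤ p.2.2.1 ()) (d : Dir1 R m) : 0 ≤ cst p d := by
  cases d <;> simp only [cst] <;> positivity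

theorem hs_of_ad {k : Fin 5} {b : Module.Basis (Fin 4) ℝ H4} (hb : IsAd k b) (i : Fin 4) :
    sH k (b i) = b i + if i = 0 then om (dk k) (b 0) • b 1 else 0 := by
  have h0 : ∀ x : H4, sH k x = x + om (dk k) x • dk k := fun x => rfl
  have h1 : om (dk k) (dk k) = 0 := by simp only [om]; ring
  obtain ⟨e1, -, e2, e3⟩ := hb
  rw [h0]
  fin_cases i
  · simp [e1]
  · simp [e1, h1]
  · simp [e2]
  · simp [e3]

/-- **(a)** -/
theorem bnd (hD : DerOf) (hP : PullOf) (X : Ext) (hC : CptOf X) (Θ : Gauge) (hA : Asy1 Θ)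
    (k : Fin 5) (T : MT) (hT : SymT T) (hs : ∀ x : Fin 14 → H4, T (fun i => sH k (x i)) = T x)
    (b : Module.Basis (Fin 4) ℝ H4) (hb : IsAd k b) (K : Set H681.C6) (hK : K ⊆ H828.XD k)
    (hKc : IsCompact K) :
    ∃ c₀ > 0, ∀ c, 0 < c → c ≤ c₀ → ∃ R₁ > 0, ∀ R₀ ≥ R₁, ∃ (M₀ C : ℝ), 1 ≤ M₀ ∧ 0 ≤ C ∧
    ∀ (R : Region1) (m : Fin (R.n + 1)) (S : L → Bool) (p : Co1 R m) (g : ℂ) (v : L → ℂ),
      InReg k K c R₀ M₀ S p g v → ∀ d : Fin (16 + 14) → Dir1 R m,
      ‖wedgeT (GR X.G S (toE k c p) (R.sht (toSp c p) g v)) T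
        (fun i => Θ.th i S (toE k c p) (R.sht (toSp c p) g v))
        (fun i => fderiv ℝ (toE k c) p (evec p (d i)))‖ ≤ C * ∏ i, cst p (d i) := by
  obtain ⟨c1, hc1, h1⟩ := hA k b hb K hK hKc
  obtain ⟨c2, hc2, h2⟩ := hC k K hK hKc
  refine ⟨min c1 c2, lt_min hc1 hc2, fun c hc hcc => ?_⟩
  obtain ⟨R1, hR1, h1⟩ := h1 c hc (hcc.trans (min_le_left _ _))
  obtain ⟨R2, hR2, h2⟩ := h2 c hc (hcc.trans (min_le_right _ _))
  refine ⟨max R1 R2, lt_max_of_lt_left hR1, fun R₀ hR₀ => ?_⟩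
  obtain ⟨M1, B, r, hM1, hB, hr, h1⟩ := h1 R₀ ((le_max_left _ _).trans hR₀)
  obtain ⟨M2, CF, hCF, h2⟩ := h2 R₀ ((le_max_right _ _).trans hR₀) r hr
  obtain ⟨C1, hC1, hD⟩ := hD c hc
  refine ⟨max 1 (max M1 M2), wc 16 14 * (CF * C1 ^ 16 * (sK 14 b * ‖T‖ *
    (B * (4 * cb b)) ^ 14)), le_max_left _ _, ?_, ?_⟩
  · have := wc_nonneg 16 14
    have := sK_nonneg 14 b
    have := cb_nonneg b
    positivity
  intro R m S p g v hp d
  have hy1 : 1 ≤ p.2.2.1 () := (le_max_left _ _).trans hp.y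
  have mono : ∀ {M : ℝ}, M ≤ max 1 (max M1 M2) → InReg k K c R₀ M S p g v := fun hM =>
    ⟨hp.far, hp.base, hM.trans hp.y, hp.al, hp.inr, hp.ph, hp.zone, hp.sheet, hp.std⟩
  obtain ⟨a1, a2, a3⟩ := h1 R m S p g v (mono ((le_max_left _ _).trans (le_max_right _ _)))
  have hcst : ∀ i, 0 ≤ cst p (d i) := fun i => cst_nonneg p (by linarith) _
  have hC0 : 0 ≤ wc 16 14 * (CF * C1 ^ 16 * (sK 14 b * ‖T‖ * (B * (4 * cb b)) ^ 14)) *
      ∏ i, cst p (d i) := by
    have := wc_nonneg 16 14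
    have := sK_nonneg 14 b
    have := cb_nonneg b
    have := Finset.prod_nonneg fun i (_ : i ∈ Finset.univ) => hcst i
    positivity
  -- close marks of the same type
  by_cases q1 : ∃ i j : Fin 14, i ≠ j ∧ (mrk i).2 = (mrk j).2 ∧
      Close r S (toSp c p) g v (mrk i) (mrk j)
  · obtain ⟨i, j, hij, ht, hcl⟩ := q1
    rw [wedgeT_eq_zero_of_eq _ hij (hT i j ht) (a3 i j hij ht hcl)]
    simpa using hC0
  -- marks near the other roots
  by_cases q2 : ∃ i : Fin 14, R.nk (mrk i) = false ∧ S (mrk i) = false ∧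
      ∃ l, ‖R.pos (toSp c p) (mrk i) - R.oth (toSp c p) l‖ < r
  · obtain ⟨i, hi, hi', hl⟩ := q2
    rw [wedgeT_eq_zero_of_zero (a := i) _ _ (a2 i hi hi' hl)]
    simpa using hC0
  push Not at q1 q2
  obtain ⟨hok, hH⟩ := h2 R m S p g v (mono ((le_max_right _ _).trans (le_max_right _ _)))
    q1 q2
  have hpull := hP X k R m S c p g v hp.far hok hp.std
  have hF : ∀ I : Fin 16 → Fin (16 + 14), Function.Injective I →
      |GR X.G S (toE k c p) (R.sht (toSp c p) g v)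
        (fun i => fderiv ℝ (toE k c) p (evec p (d (I i))))| ≤
        (CF * C1 ^ 16) * ∏ i, cst p (d (I i)) := by
    intro I _
    have e1 : GR X.G S (toE k c p) (R.sht (toSp c p) g v)
        (fun i => fderiv ℝ (toE k c) p (evec p (d (I i)))) =
        X.H1 R S (toSp c p) g v (fun i => fderiv ℝ (toSp c) p (evec p (d (I i)))) :=
      DFunLike.congr_fun hpull (fun i => evec p (d (I i)))
    rw [e1, ← Real.norm_eq_abs]
    refine (ContinuousAlternatingMap.le_opNorm _ _).trans ?_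
    have e2 : ∏ i : Fin 16, ‖fderiv ℝ (toSp c) p (evec p (d (I i)))‖ ≤
        ∏ i : Fin 16, (C1 * cst p (d (I i))) :=
      Finset.prod_le_prod (fun i _ => norm_nonneg _) fun i _ => hD R m p _ hp.inr hy1
    rw [Finset.prod_mul_distrib, Finset.prod_const, Finset.card_univ, Fintype.card_fin] at e2
    calc ‖X.H1 R S (toSp c p) g v‖ * ∏ i : Fin 16, ‖fderiv ℝ (toSp c) p (evec p (d (I i)))‖
        ≤ CF * (C1 ^ 16 * ∏ i : Fin 16, cst p (d (I i))) :=
          mul_le_mul hH e2 (Finset.prod_nonneg fun i _ => norm_nonneg _) hCF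
      _ = _ := by ring
  have hry : 1 ≤ Real.sqrt (p.2.2.1 ()) := by
    rw [Real.one_le_sqrt]; exact hy1
  obtain ⟨-, hκ, -, -⟩ := id hb
  exact norm_wedgeT_le_fixed (m := 16) (n := 14) _ T _ _ (fun i => cst p (d i)) hcst b (sH k)
    (p := 0) (q := 1) (by decide) hκ (hs_of_ad hb) hs hry (by positivity) hF
    (fun j i => (a1 j (d i)).1) (fun j i => (a1 j (d i)).2.1)
    (fun j i k' h3 h4 => by
      fin_cases k'
      · exact absurd rfl h3
      · exact absurd rfl h4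
      · exact (a1 j (d i)).2.2.1
      · exact (a1 j (d i)).2.2.2)

end Vale.Agent.P273.H879
end
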