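import Vale.Agent.P273.H879.OneNode
import Vale.Agent.P273.H732.Conv2
import Vale.Agent.P273.H793.FrameR

/-!
P273, row NEG: 852's regions with one neck as 95's `Region1`, and their coordinates as points of the
logarithmic chart of OneNode.lean.
-/

set_option linter.unusedSectionVars false
set_option linter.unusedSimpArgs false

noncomputable section

namespace Vale.Agent.P273.H879

open Set Filter MeasureTheory H95 H852 H732 H793
open scoped Topology ContDiff

section Conv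

variable (R : H852.Reg L Unit)

/-- the rank of a mark in a region of 852 -/
def rk1 (x : L) : ℕ :=
  match h : R.A x with
  | Sum.inl k => ((R.ord k).symm ⟨x, h⟩ : ℕ)
  | Sum.inr _ => 0

theorem rk1_neck {x : L} {k : Unit} (h : R.A x = Sum.inl k) :
    rk1 R x = ((R.ord k).symm ⟨x, h⟩ : ℕ) := by
  unfold rk1
  split
  · rfl
  · rename_i s h'
    rw [h] at h'
    cases h'

theorem rk1_core {x : L} {s : Bool} (h : R.A x = Sum.inr s) : rk1 R x = 0 := by
  unfold rk1
  split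
  · rename_i k' h'
    rw [h] at h'
    cases h'
  · rfl

theorem isLeft_iff {x : L} : (R.A x).isLeft = true ↔ R.A x = Sum.inl () := by
  rcases h : R.A x with k | s
  · simp
  · simp

theorem n_eq1 : (Finset.univ.filter fun y => (R.A y).isLeft = true).card = R.n () := by
  rw [H852.Reg.n, Fintype.card_subtype]
  congr 1
  ext y
  simp only [Finset.mem_filter, Finset.mem_univ, true_and]
  exact isLeft_iff R

/-- 95's region of a region of 852 -/
def to1 : Region1 where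
  nk x := (R.A x).isLeft
  rk := rk1 R
  rk_core x h := by
    rcases h' : R.A x with k | s
    · rw [h'] at h; cases h
    · exact rk1_core R h'
  rk_inj x y hx hy h := by
    have hx' := (isLeft_iff R).1 hx
    have hy' := (isLeft_iff R).1 hy
    rw [rk1_neck R hx', rk1_neck R hy'] at h
    have h1 := (R.ord ()).symm.injective (Fin.ext h)
    exact congrArg Subtype.val h1
  rk_lt x hx := by
    have hx' := (isLeft_iff R).1 hx
    rw [rk1_neck R hx', n_eq1]
    exact ((R.ord ()).symm ⟨x, hx'⟩).2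

theorem to1_n : (to1 R).n = R.n () := n_eq1 R

theorem to1_nk_true {x : L} : (to1 R).nk x = true ↔ R.A x = Sum.inl () := isLeft_iff R

theorem to1_nk_false {x : L} : (to1 R).nk x = false ↔ ∃ s, R.A x = Sum.inr s := by
  change (R.A x).isLeft = false ↔ _
  rcases h : R.A x with k | s
  · simp
  · simp

/-- the eliminated gap -/
def m1 : Fin ((to1 R).n + 1) := Fin.cast (by rw [to1_n]) (R.m ())

/-- free gaps -/
def gf1 : R.Gf ≃ (wr (to1 R) (m1 R)).Fr :=
  (Equiv.sigmaCongrRight fun _ : Unit => finCongr (to1_n R).symm).trans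
    (frE (fun _ : Unit => (to1 R).n) (fun _ => m1 R))

/-- core marks -/
def kc1 : R.Kc ≃ (to1 R).Cm where
  toFun j := ⟨j.1, by
    rcases h : R.A j.1 with k | s
    · exact absurd h (j.2 k)
    · exact (to1_nk_false R).2 ⟨s, h⟩⟩
  invFun j := ⟨j.1, fun k hk => by
    obtain ⟨s, hs⟩ := (to1_nk_false R).1 j.2
    rw [hk] at hs
    cases hs⟩
  left_inv _ := rfl
  right_inv _ := rfl

/-- 852's coordinates as a point of the chart: length `y` and angle `a` of the neck, `o` = centre and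
the other roots -/
def co1 (y a : ℝ) (o : Fin 5 → ℂ) (x : Cd R) : Co1 (to1 R) (m1 R) :=
  (fun f => x.1.1 ((gf1 R).symm f), fun f => x.1.2 ((gf1 R).symm f), fun _ => y, fun _ => a,
    Sum.elim (fun c => x.2 ((kc1 R).symm c)) o)

/-- necks data of one neck -/
def nd1 (c y a : ℝ) (o : Fin 5 → ℂ) (G s : ℂ → ℂ) : Necks Unit where
  e _ := o 0
  c _ := c
  ε _ := (c : ℂ) ^ 2 * Complex.exp (-(y : ℂ) + (a : ℂ) * Complex.I)
  Y _ := y
  a _ := a
  G _ := G
  s := s

theorem co1_u (y a : ℝ) (o : Fin 5 → ℂ) (x : Cd R) (g : R.Gf) :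
    (co1 R y a o x).1 (gf1 R g) = x.1.1 g := by
  simp [co1]

theorem co1_th (y a : ℝ) (o : Fin 5 → ℂ) (x : Cd R) (g : R.Gf) :
    (co1 R y a o x).2.1 (gf1 R g) = x.1.2 g := by
  simp [co1]

/-- the gaps agree -/
theorem tau_co1 (c y a : ℝ) (o : Fin 5 → ℂ) (G s : ℂ → ℂ) (x : Cd R) (g : Fin (R.n () + 1)) :
    R.tau (nd1 c y a o G s) x.1.1 x.1.2 ⟨(), g⟩
      = (wr (to1 R) (m1 R)).tau (co1 R y a o x) ⟨(), Fin.cast (by rw [to1_n]) g⟩ := by
  rw [tau_wreg, H852.Reg.tau]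
  have h1 : ∀ i : Fin (R.n ()), x.1.1 ⟨(), i⟩
      = (co1 R y a o x).1 (frE _ _ ⟨(), Fin.cast (to1_n R).symm i⟩) := fun i =>
    (co1_u R y a o x ⟨(), i⟩).symm
  have h2 : ∀ i : Fin (R.n ()), x.1.2 ⟨(), i⟩
      = (co1 R y a o x).2.1 (frE _ _ ⟨(), Fin.cast (to1_n R).symm i⟩) := fun i =>
    (co1_th R y a o x ⟨(), i⟩).symm
  have e1 : fullGap (R.m ()) ((nd1 c y a o G s).Y ()) (fun i => x.1.1 ⟨(), i⟩) g
      = fullGap (m1 R) ((co1 R y a o x).2.2.1 ())
        (fun i => (co1 R y a o x).1 (frE _ _ ⟨(), i⟩)) (Fin.cast (by rw [to1_n]) g) := by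
    rw [funext h1]
    exact fullGap_cast (to1_n R).symm (R.m ()) y
      (fun i => (co1 R y a o x).1 (frE _ _ ⟨(), i⟩)) g
  have e2 : fullGap (R.m ()) ((nd1 c y a o G s).a ()) (fun i => x.1.2 ⟨(), i⟩) g
      = fullGap (m1 R) ((co1 R y a o x).2.2.2.1 ())
        (fun i => (co1 R y a o x).2.1 (frE _ _ ⟨(), i⟩)) (Fin.cast (by rw [to1_n]) g) := by
    rw [funext h2]
    exact fullGap_cast (to1_n R).symm (R.m ()) a
      (fun i => (co1 R y a o x).2.1 (frE _ _ ⟨(), i⟩)) g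
  rw [e1, e2]

end Conv

section Sp

variable {R : Region1} {m : Fin (R.n + 1)}

theorem prod_first1 (s : Finset (Fin (R.n + 1))) (h : (0 : Fin (R.n + 1)) ∈ s) (c : ℂ) :
    (∏ g ∈ s, if g = 0 then c else 1) = c := by
  rw [Finset.prod_ite_eq']
  simp [h]

theorem prod_no_first1 (s : Finset (Fin (R.n + 1))) (h : (0 : Fin (R.n + 1)) ∉ s) (c : ℂ) :
    (∏ g ∈ s, if g = 0 then c else 1) = 1 := by
  rw [Finset.prod_ite_eq']
  simp [h]

theorem prod_last1 (s : Finset (Fin (R.n + 1))) (h : Fin.last R.n ∈ s) (c : ℂ) :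
    (∏ g ∈ s, if g = Fin.last R.n then c else 1) = c := by
  rw [Finset.prod_ite_eq']
  simp [h]

theorem prod_no_last1 (s : Finset (Fin (R.n + 1))) (h : Fin.last R.n ∉ s) (c : ℂ) :
    (∏ g ∈ s, if g = Fin.last R.n then c else 1) = 1 := by
  rw [Finset.prod_ite_eq']
  simp [h]

theorem XX_toSp (c : ℝ) (p : Co1 R m) {i : ℕ} (hi : i < R.n) :
    R.XX (toSp c p) i
      = c * ∏ g : Fin (R.n + 1), if (g : ℕ) ≤ i then (wr R m).tau p ⟨(), g⟩ else 1 := by
  rw [Region1.XX, ← Finset.prod_filter, ← Finset.prod_filter]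
  simp only [toSp, cw1, Finset.prod_mul_distrib]
  rw [prod_first1 _ (by simp), prod_no_last1 _ (by simp [hi])]
  ring

theorem YY_toSp (c : ℝ) (p : Co1 R m) {i : ℕ} (hi : i < R.n) :
    R.YY (toSp c p) i
      = c * ∏ g : Fin (R.n + 1), if i < (g : ℕ) then (wr R m).tau p ⟨(), g⟩ else 1 := by
  rw [Region1.YY, ← Finset.prod_filter, ← Finset.prod_filter]
  simp only [toSp, cw1, Finset.prod_mul_distrib]
  rw [prod_no_first1 _ (by simp), prod_last1 _ (by simp [hi])]
  ring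

theorem pos1_neck (q : R.Sp) {j : L} (h : R.nk j = true) :
    R.pos q j = R.ctr q + (R.XX q (R.rk j) + R.YY q (R.rk j)) / 2 := by
  unfold Region1.pos
  rw [dif_neg (by simp [h])]

theorem pos1_core (q : R.Sp) {j : L} (h : R.nk j = false) :
    R.pos q j = q.2 (Sum.inl ⟨j, h⟩) := by
  unfold Region1.pos
  rw [dif_pos h]

end Sp

section Pos

variable (R : H852.Reg L Unit)

theorem U_co1 (c y a : ℝ) (o : Fin 5 → ℂ) (G s : ℂ → ℂ) (x : Cd R) (i : Fin (R.n ())) :
    R.U (nd1 c y a o G s) (R.tau (nd1 c y a o G s) x.1.1 x.1.2) () i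
      = (to1 R).XX (toSp c (co1 R y a o x)) i := by
  have hi : (i : ℕ) < (to1 R).n := by rw [to1_n]; exact i.2
  rw [XX_toSp c _ hi, H852.Reg.U]
  rw [Finset.prod_congr rfl fun g _ => tau_co1 R c y a o G s x g]
  rw [prod_Iic_cast (to1_n R).symm i
    (fun g => (wr (to1 R) (m1 R)).tau (co1 R y a o x) ⟨(), g⟩)]
  rfl

theorem V_co1 (c y a : ℝ) (o : Fin 5 → ℂ) (G s : ℂ → ℂ) (x : Cd R) (i : Fin (R.n ())) :
    R.V (nd1 c y a o G s) (R.tau (nd1 c y a o G s) x.1.1 x.1.2) () i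
      = (to1 R).YY (toSp c (co1 R y a o x)) i := by
  have hi : (i : ℕ) < (to1 R).n := by rw [to1_n]; exact i.2
  rw [YY_toSp c _ hi, H852.Reg.V]
  rw [Finset.prod_congr rfl fun g _ => tau_co1 R c y a o G s x g]
  rw [prod_Ioi_cast (to1_n R).symm i
    (fun g => (wr (to1 R) (m1 R)).tau (co1 R y a o x) ⟨(), g⟩)]
  rfl

theorem pos852_neck1 (D : Necks Unit) (τ : R.Gap → ℂ) (z : R.Kc → ℂ) {j : L}
    (h : R.A j = Sum.inl ()) : R.pos D τ z j =
      D.pt () (R.U D τ () ((R.ord ()).symm ⟨j, h⟩)) (R.V D τ () ((R.ord ()).symm ⟨j, h⟩)) := by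
  unfold H852.Reg.pos
  split
  · rfl
  · rename_i b h'
    rw [h] at h'
    cases h'

theorem pos852_core1 (D : Necks Unit) (τ : R.Gap → ℂ) (z : R.Kc → ℂ) {j : L} {b : Bool}
    (h : R.A j = Sum.inr b) : R.pos D τ z j =
      (z ⟨j, fun k hk => by simp [hk] at h⟩,
        if b then D.s (z ⟨j, fun k hk => by simp [hk] at h⟩)
        else - D.s (z ⟨j, fun k hk => by simp [hk] at h⟩)) := by
  unfold H852.Reg.pos
  split
  · rename_i k' h'
    rw [h] at h'
    cases h'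
  · rename_i b' h'
    have : b' = b := by rw [h] at h'; exact (Sum.inr.inj h').symm
    subst this
    rfl

/-- **the positions agree** -/
theorem xpos_co1 (c y a : ℝ) (o : Fin 5 → ℂ) (G s : ℂ → ℂ) (x : Cd R) (j : L) :
    xpos R (nd1 c y a o G s) (R.tau (nd1 c y a o G s) x.1.1 x.1.2) x.2 j
      = (to1 R).pos (toSp c (co1 R y a o x)) j := by
  rw [xpos]
  rcases h : R.A j with k | b
  · have h' : R.A j = Sum.inl () := h
    rw [pos852_neck1 R _ _ _ h', U_co1, V_co1, Necks.pt,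
      pos1_neck _ ((to1_nk_true R).2 h')]
    have hr : (((R.ord ()).symm ⟨j, h'⟩ : Fin _) : ℕ) = (to1 R).rk j := (rk1_neck R h').symm
    rw [hr]
    rfl
  · rw [pos852_core1 R _ _ _ h, pos1_core _ ((to1_nk_false R).2 ⟨b, h⟩)]
    rfl

/-- **the sheets of the neck marks agree** -/
theorem sht_co1 (c y a : ℝ) (o : Fin 5 → ℂ) (s : ℂ → ℂ) (g : ℂ) (v : L → ℂ) (x : Cd R) {j : L}
    (h : R.A j = Sum.inl ()) (z : R.Kc → ℂ) :
    (R.pos (nd1 c y a o (fun x => g * ∏ l : Fin 4, csq ((x - o l.succ) / (o 0 - o l.succ))) s)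
      (R.tau (nd1 c y a o (fun x => g * ∏ l : Fin 4, csq ((x - o l.succ) / (o 0 - o l.succ))) s)
        x.1.1 x.1.2) z j).2
      = (to1 R).sht (toSp c (co1 R y a o x)) g v j := by
  rw [pos852_neck1 R _ _ _ h, U_co1, V_co1, Necks.pt, Region1.sht,
    if_pos ((to1_nk_true R).2 h), pos1_neck _ ((to1_nk_true R).2 h)]
  have hr : (((R.ord ()).symm ⟨j, h⟩ : Fin _) : ℕ) = (to1 R).rk j := (rk1_neck R h).symm
  rw [hr, mul_div_assoc]
  rfl

end Pos

end Vale.Agent.P273.H879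
end
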