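import Vale.Agent.P273.H879.Cv
import Vale.Agent.P273.H879.Bnd
import Vale.Agent.P273.H828.NegBase
import Vale.Agent.P273.H401.Ch1
import Vale.Agent.P273.H182.WfChg

/-!
P273, row NEG, part (c2): the frame of a one-node region.
-/

set_option linter.unusedSectionVars false
set_option linter.unusedSimpArgs false

noncomputable section

namespace Vale.Agent.P273.H879

open Set Filter MeasureTheory H95 H852 H732 H793 H973
open H681 (C6)
open scoped Topology ContDiff

/-! ### the order of the 30 vectors -/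

/-- the place of a vector: `inl` = base, `inr (j, 0/1)` = real / imaginary direction of the mark `j` -/
def plc (i : Fin (16 + 14)) : Fin 2 ⊕ L × Fin 2 :=
  if h : (i : ℕ) < 28 then
    Sum.inr (mrk ⟨(i : ℕ) / 2, by omega⟩, ⟨(i : ℕ) % 2, Nat.mod_lt _ (by norm_num)⟩)
  else Sum.inl ⟨(i : ℕ) - 28, by omega⟩

theorem mrk_inj : Function.Injective mrk := by
  intro a b h
  unfold mrk at h
  apply Fin.ext
  split_ifs at h with h1 h2 h3
  · have := congrArg (fun x : L => (x.1 : ℕ)) h
    exact this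
  · have := congrArg (fun x : L => x.2) h
    simp at this
  · have := congrArg (fun x : L => x.2) h
    simp at this
  · have := congrArg (fun x : L => (x.1 : ℕ)) h
    simp only at this
    omega

theorem plc_inj : Function.Injective plc := by
  intro a b h
  unfold plc at h
  apply Fin.ext
  split_ifs at h with h1 h2 h3
  · have h4 := Sum.inr.inj h
    have h5 := congrArg Fin.val (mrk_inj (congrArg Prod.fst h4))
    have h6 := congrArg Fin.val (congrArg Prod.snd h4)
    simp only at h5 h6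
    omega
  · have h4 := congrArg Fin.val (Sum.inl.inj h)
    simp only at h4
    omega

theorem plc_bij : Function.Bijective plc :=
  (Fintype.bijective_iff_injective_and_card plc).2 ⟨plc_inj, by simp⟩

/-- the order of the vectors -/
def sgm : Fin 2 ⊕ L × Fin 2 ≃ Fin (16 + 14) := (Equiv.ofBijective plc plc_bij).symm

theorem sgm_symm (i : Fin (16 + 14)) : sgm.symm i = plc i := rfl

/-- the standard frame -/
theorem vec_eq (B : Fin 2 → C6) : (H811.vec (n := 28) (k := 2) vb B : Fin (28 + 2) → E) =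
    (Sum.elim (fun i => ((B i, 0) : E)) (fr (ev (ι := L) C6))) ∘ sgm.symm := by
  funext i
  rw [Function.comp_apply, sgm_symm]
  refine Fin.addCases (m := 28) (n := 2) (fun a => ?_) (fun a => ?_) i
  · rw [H811.vec_castAdd]
    have h1 : ((Fin.castAdd 2 a : Fin (28 + 2)) : ℕ) < 28 := a.2
    have h2 : plc (Fin.castAdd 2 a) = Sum.inr (mrk ⟨(a : ℕ) / 2, by omega⟩,
        ⟨(a : ℕ) % 2, Nat.mod_lt _ (by norm_num)⟩) := by
      unfold plc
      rw [dif_pos h1]
      rfl
    rw [h2, Sum.elim_inr, fr, ev_apply]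
    unfold vb
    refine Prod.ext rfl ?_
    simp only
    congr 1
    unfold cI
    by_cases h : (a : ℕ) % 2 = 0
    · have h3 : (⟨(a : ℕ) % 2, Nat.mod_lt _ (by norm_num)⟩ : Fin 2) = 0 := Fin.ext h
      rw [if_pos h, if_pos h3]
    · have h3 : (⟨(a : ℕ) % 2, Nat.mod_lt _ (by norm_num)⟩ : Fin 2) ≠ 0 := fun h' =>
        h (congrArg Fin.val h')
      rw [if_neg h, if_neg h3]
  · rw [H811.vec_natAdd]
    have h1 : ¬ ((Fin.natAdd 28 a : Fin (28 + 2)) : ℕ) < 28 := by simp
    have h2 : plc (Fin.natAdd 28 a) = Sum.inl a := by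
      unfold plc
      rw [dif_neg h1]
      congr 1
      apply Fin.ext
      simp
    rw [h2, Sum.elim_inl]

/-! ### the derivative of the chart in the vertical directions -/

section Vert

variable (R : H852.Reg L Unit)

/-- a vertical vector of the chart -/
def vc (v : Cd R) : Co1 (to1 R) (m1 R) :=
  (fun f => v.1.1 ((gf1 R).symm f), fun f => v.1.2 ((gf1 R).symm f), 0, 0,
    Sum.elim (fun c => v.2 ((kc1 R).symm c)) 0)

theorem co1_line (y a : ℝ) (o : Fin 5 → ℂ) (x v : Cd R) (t : ℝ) :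
    co1 R y a o x + t • vc R v = co1 R y a o ((fun g => x.1.1 g + t * v.1.1 g,
      fun g => x.1.2 g + t * v.1.2 g), fun c => x.2 c + t * v.2 c) := by
  refine Prod.ext ?_ (Prod.ext ?_ (Prod.ext ?_ (Prod.ext ?_ ?_)))
  · funext f; simp [co1, vc]
  · funext f; simp [co1, vc]
  · funext f; simp [co1, vc]
  · funext f; simp [co1, vc]
  · funext f
    rcases f with f | f <;> simp [co1, vc]

/-- the data of the neck, only the geometry -/
abbrev nd0 (c y a : ℝ) (o : Fin 5 → ℂ) : Necks Unit := nd1 c y a o (fun _ => 0) (fun _ => 0)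

theorem fderiv_toE_vc (k : Fin 5) (c y a : ℝ) (o : Fin 5 → ℂ) (x v : Cd R) (s : R.Gf ⊕ R.Kc) :
    (fderiv ℝ (toE k c) (co1 R y a o x) (vc R v)).1 = 0 ∧
    (fderiv ℝ (toE k c) (co1 R y a o x) (vc R v)).2 (eqv R s) =
      ∑ r, Jm R (nd0 c y a o) (R.tau (nd0 c y a o) x.1.1 x.1.2) r s *
        H793.om v.1.1 v.1.2 v.2 r := by
  have hd : HasFDerivAt (toE k c) (fderiv ℝ (toE k c) (co1 R y a o x)) (co1 R y a o x) :=
    ((H401.Ch1.contDiff_toE (n := 1) k c).differentiable (by simp)).differentiableAt.hasFDerivAt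
  constructor
  · rw [H828.base_of_hasFDerivAt hd]
    funext j
    simp [H828.dbase, H828.pr, vc]
  · have h1 : HasDerivAt (fun t : ℝ => co1 R y a o x + t • vc R v) (vc R v) 0 := by
      simpa using ((hasDerivAt_id (0 : ℝ)).smul_const (vc R v)).const_add (co1 R y a o x)
    have h2 : HasDerivAt (fun t : ℝ => toE k c (co1 R y a o x + t • vc R v))
        (fderiv ℝ (toE k c) (co1 R y a o x) (vc R v)) 0 := by
      have h3 : HasFDerivAt (toE k c) (fderiv ℝ (toE k c) (co1 R y a o x))
          (co1 R y a o x + (0 : ℝ) • vc R v) := by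
        simpa using hd
      exact h3.comp_hasDerivAt (0 : ℝ) h1
    have h4 : HasDerivAt (fun t : ℝ => (toE k c (co1 R y a o x + t • vc R v)).2 (eqv R s))
        ((fderiv ℝ (toE k c) (co1 R y a o x) (vc R v)).2 (eqv R s)) 0 := by
      have h6 := (ContinuousLinearMap.snd ℝ C6 (L → ℂ)).hasFDerivAt.comp_hasDerivAt (0 : ℝ) h2
      exact hasDerivAt_pi.1 h6 (eqv R s)
    have h5 : (fun t : ℝ => (toE k c (co1 R y a o x + t • vc R v)).2 (eqv R s))
        = fun t : ℝ => xpos R (nd0 c y a o) (R.tau (nd0 c y a o) (fun f => x.1.1 f + t * v.1.1 f)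
          (fun f => x.1.2 f + t * v.1.2 f)) (fun c => x.2 c + t * v.2 c) (eqv R s) := by
      funext t
      rw [co1_line]
      exact (xpos_co1 R c y a o (fun _ => 0) (fun _ => 0)
        ((fun g => x.1.1 g + t * v.1.1 g, fun g => x.1.2 g + t * v.1.2 g),
          fun c => x.2 c + t * v.2 c) (eqv R s)).symm
    rw [h5] at h4
    exact h4.unique (xpos_line (nd0 c y a o) x.1.1 x.1.2 v.1.1 v.1.2 x.2 v.2 s)

/-- the vertical frame of the chart -/
theorem fderiv_toE_gfr (k : Fin 5) (c y a : ℝ) (o : Fin 5 → ℂ) (x : Cd R) (j : L) (i : Fin 2) :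
    fderiv ℝ (toE k c) (co1 R y a o x) (vc R (gfr R ((eqv R).symm j) i)) =
      fr (chg (Am R (nd0 c y a o) (R.tau (nd0 c y a o) x.1.1 x.1.2)) (ev (ι := L) C6)) (j, i) := by
  obtain ⟨s, rfl⟩ := (eqv R).surjective j
  rw [fr, chg_apply]
  have h2 : (∑ j, ev C6 j (Am R (nd0 c y a o) (R.tau (nd0 c y a o) x.1.1 x.1.2) (eqv R s) j *
      cI i)) = (0, fun j => Am R (nd0 c y a o) (R.tau (nd0 c y a o) x.1.1 x.1.2) (eqv R s) j *
        cI i) := by
    rw [← vert_ev, vert_apply]
  simp only [Equiv.symm_apply_apply]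
  rw [h2]
  refine Prod.ext (fderiv_toE_vc R k c y a o x (gfr R s i) s).1 ?_
  funext j
  obtain ⟨s', rfl⟩ := (eqv R).surjective j
  rw [(fderiv_toE_vc R k c y a o x (gfr R s i) s').2, om_gfr, Finset.sum_eq_single s]
  · simp [Am]
  · intro r _ hr
    rw [Pi.single_eq_of_ne hr, mul_zero]
  · intro h'; exact absurd (Finset.mem_univ s) h'

/-- the direction of the chart of a vertical vector -/
def dof (s : R.Gf ⊕ R.Kc) (i : Fin 2) : Dir1 (to1 R) (m1 R) :=
  match s with
  | Sum.inl g => if i = 0 then .u (gf1 R g) else .ph (gf1 R g)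
  | Sum.inr d => if i = 0 then .re (Sum.inl (kc1 R d)) else .im (Sum.inl (kc1 R d))

/-- the sign -/
def sof (s : R.Gf ⊕ R.Kc) (i : Fin 2) : ℝ :=
  match s with
  | Sum.inl _ => if i = 0 then -1 else 1
  | Sum.inr _ => 1

theorem single_comp_symm {A B M : Type*} [DecidableEq A] [DecidableEq B] [Zero M] (e : A ≃ B)
    (a : A) (z : M) : (fun b => (Pi.single a z : A → M) (e.symm b)) = Pi.single (e a) z := by
  funext b
  by_cases h : b = e a
  · subst h; simp
  · rw [Pi.single_eq_of_ne h, Pi.single_eq_of_ne]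
    rintro h'
    exact h (by rw [← h']; simp)

theorem vc_gfr (p : Co1 (to1 R) (m1 R)) (s : R.Gf ⊕ R.Kc) (i : Fin 2) :
    vc R (gfr R s i) = sof R s i • evec p (dof R s i) := by
  rcases s with g | d
  · fin_cases i
    · refine Prod.ext ?_ (Prod.ext ?_ (Prod.ext ?_ (Prod.ext ?_ ?_)))
      · change (fun f => (-(Pi.single g (1 : ℝ) : R.Gf → ℝ)) ((gf1 R).symm f)) = _
        have h := single_comp_symm (gf1 R) g (1 : ℝ)
        have h' : (fun f => (-(Pi.single g (1 : ℝ) : R.Gf → ℝ)) ((gf1 R).symm f)) =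
            -(Pi.single (gf1 R g) (1 : ℝ)) := by
          rw [← h]; rfl
        rw [h']
        simp [sof, dof, evec, H732.Reg.vec]
      · simp [vc, gfr, sof, dof, evec, H732.Reg.vec]; rfl
      · simp [vc, gfr, sof, dof, evec, H732.Reg.vec]
      · simp [vc, gfr, sof, dof, evec, H732.Reg.vec]
      · funext f
        rcases f with f | f <;> simp [vc, gfr, sof, dof, evec, H732.Reg.vec]
    · refine Prod.ext ?_ (Prod.ext ?_ (Prod.ext ?_ (Prod.ext ?_ ?_)))
      · simp [vc, gfr, sof, dof, evec, H732.Reg.vec]; rfl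
      · change (fun f => (Pi.single g (1 : ℝ) : R.Gf → ℝ) ((gf1 R).symm f)) = _
        rw [single_comp_symm (gf1 R) g (1 : ℝ)]
        simp [sof, dof, evec, H732.Reg.vec]
      · simp [vc, gfr, sof, dof, evec, H732.Reg.vec]
      · simp [vc, gfr, sof, dof, evec, H732.Reg.vec]
      · funext f
        rcases f with f | f <;> simp [vc, gfr, sof, dof, evec, H732.Reg.vec]
  · have key : ∀ z : ℂ, (Sum.elim (fun c => (Pi.single d z : R.Kc → ℂ) ((kc1 R).symm c)) 0 :
        (to1 R).Cm ⊕ Fin 5 → ℂ) = Pi.single (Sum.inl (kc1 R d)) z := by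
      intro z
      rw [single_comp_symm (kc1 R) d z]
      funext f
      rcases f with f | f
      · by_cases h : f = kc1 R d
        · subst h; simp
        · have h' : (Sum.inl f : (to1 R).Cm ⊕ Fin 5) ≠ Sum.inl (kc1 R d) := fun h' =>
            h (Sum.inl.inj h')
          simp [Pi.single_eq_of_ne h, Pi.single_eq_of_ne h']
      · simp
    fin_cases i
    · refine Prod.ext ?_ (Prod.ext ?_ (Prod.ext ?_ (Prod.ext ?_ ?_)))
      · simp [vc, gfr, sof, dof, evec, H732.Reg.vec]; rfl
      · simp [vc, gfr, sof, dof, evec, H732.Reg.vec]; rfl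
      · simp [vc, gfr, sof, dof, evec, H732.Reg.vec]
      · simp [vc, gfr, sof, dof, evec, H732.Reg.vec]
      · change (Sum.elim (fun c => (Pi.single d (cI 0) : R.Kc → ℂ) ((kc1 R).symm c)) 0 :
          (to1 R).Cm ⊕ Fin 5 → ℂ) = _
        rw [key]
        simp [sof, dof, evec, H732.Reg.vec]
    · refine Prod.ext ?_ (Prod.ext ?_ (Prod.ext ?_ (Prod.ext ?_ ?_)))
      · simp [vc, gfr, sof, dof, evec, H732.Reg.vec]; rfl
      · simp [vc, gfr, sof, dof, evec, H732.Reg.vec]; rfl
      · simp [vc, gfr, sof, dof, evec, H732.Reg.vec]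
      · simp [vc, gfr, sof, dof, evec, H732.Reg.vec]
      · change (Sum.elim (fun c => (Pi.single d (cI 1) : R.Kc → ℂ) ((kc1 R).symm c)) 0 :
          (to1 R).Cm ⊕ Fin 5 → ℂ) = _
        rw [key]
        simp [sof, dof, evec, H732.Reg.vec]

theorem abs_sof (s : R.Gf ⊕ R.Kc) (i : Fin 2) : |sof R s i| = 1 := by
  rcases s with g | d
  · unfold sof
    split_ifs <;> simp
  · simp [sof]

end Vert

end Vale.Agent.P273.H879
end
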