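import Vale.Agent.P273.H879.Fr

/-!
P273, row NEG, part (c2): the value on the frame of the chart and the integrand of 852 / 120.
-/

set_option linter.unusedSectionVars false
set_option linter.unusedSimpArgs false

noncomputable section

namespace Vale.Agent.P273.H879

open Set Filter MeasureTheory H95 H852 H732 H793 H973
open H681 (C6)
open scoped Topology ContDiff

/-! ### the 30 directions -/

section Frame

variable (R : H852.Reg L Unit)

/-- the 30 directions: `b 0, b 1` the base directions -/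
def d30 (b : Fin 2 → Dir1 (to1 R) (m1 R)) (i : Fin (16 + 14)) : Dir1 (to1 R) (m1 R) :=
  match plc i with
  | Sum.inl a => b a
  | Sum.inr q => dof R ((eqv R).symm q.1) q.2

/-- the sign of a vector -/
def s30 (i : Fin (16 + 14)) : ℝ :=
  match plc i with
  | Sum.inl _ => 1
  | Sum.inr q => sof R ((eqv R).symm q.1) q.2

theorem abs_s30 (i : Fin (16 + 14)) : |s30 R i| = 1 := by
  unfold s30
  split
  · simp
  · exact abs_sof R _ _

theorem abs_smul_univ {n : ℕ} (Θ : Alt n E) (s : Fin n → ℝ) (hs : ∀ i, |s i| = 1)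
    (w : Fin n → E) : |Θ (fun i => s i • w i)| = |Θ w| := by
  have h : Θ (fun i => s i • w i) = (∏ i, s i) • Θ w :=
    Θ.toContinuousMultilinearMap.map_smul_univ s w
  rw [h, smul_eq_mul, abs_mul, Finset.abs_prod, Finset.prod_congr rfl fun i _ => hs i]
  simp

/-- **the frame of the chart** -/
theorem frame_S (k : Fin 5) (c y a : ℝ) (o : Fin 5 → ℂ) (x : Cd R) (Θ : Alt (16 + 14) E)
    (b : Fin 2 → Dir1 (to1 R) (m1 R)) :
    |Θ (fun i => fderiv ℝ (toE k c) (co1 R y a o x) (evec (co1 R y a o x) (d30 R b i)))| =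
      R.jac (nd0 c y a o) (R.tau (nd0 c y a o) x.1.1 x.1.2) *
        |Θ (H811.vec (n := 28) (k := 2) vb fun i =>
          (fderiv ℝ (toE k c) (co1 R y a o x) (evec (co1 R y a o x) (b i))).1)| := by
  set p := co1 R y a o x with hp
  set A := fderiv ℝ (toE k c) p with hA
  set D := nd0 c y a o with hD
  set τ := R.tau D x.1.1 x.1.2 with hτ
  have h1 : (fun i => s30 R i • A (evec p (d30 R b i))) =
      Sum.elim (fun a => A (evec p (b a)))
        (fr (chg (Am R D τ) (ev (ι := L) C6))) ∘ sgm.symm := by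
    funext i
    rw [Function.comp_apply, sgm_symm]
    rcases h : plc i with a' | ⟨j, i'⟩
    · simp only [s30, d30, h, Sum.elim_inl, one_smul]
    · simp only [s30, d30, h, Sum.elim_inr]
      rw [← fderiv_toE_gfr R k c y a o x j i', vc_gfr R p, map_smul]
  rw [← abs_smul_univ Θ (s30 R) (abs_s30 R), h1, vec_eq]
  have h2 := frame_eq sgm (Θ.toAlternatingMap) (ev (ι := L) C6) (Am R D τ)
    (fun a => (((A (evec p (b a))).1, 0) : E)) (fun a => A (evec p (b a)))
    (fun a => (A (evec p (b a))).2) (fun a => by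
      rw [vert_ev]
      refine Prod.ext ?_ ?_
      · simp
      · simp)
  have h3 : Θ (Sum.elim (fun a => A (evec p (b a)))
      (fr (chg (Am R D τ) (ev (ι := L) C6))) ∘ sgm.symm) =
      ‖(Am R D τ).det‖ ^ 2 • Θ (Sum.elim (fun a => (((A (evec p (b a))).1, 0) : E))
        (fr (ev (ι := L) C6)) ∘ sgm.symm) := h2
  rw [h3, smul_eq_mul, abs_mul, norm_det_Am]
  rw [abs_of_nonneg (by rw [← norm_det_Am]; positivity)]

end Frame

/-! ### change of charts -/

/-- all marks in the chart `x` -/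
abbrev S0 : L → Bool := fun _ => false

theorem wterm_chg (X : Ext) (Θ : Gauge) {T : MT} (hT : SymT T) {S S' : L → Bool} {e : E}
    {v : L → ℂ} (he : e.1 ∈ H681.XX) (hv : ∀ j, v j ^ 2 = pol (S j) (rts e.1) (e.2 j))
    (hz : ∀ j, S j ≠ S' j → e.2 j ≠ 0) :
    wedgeT (GR X.G S e v) T (fun i => Θ.th i S e v) =
      (wedgeT (GR X.G S' (H95.flip S S' e) (flipv S S' e.2 v)) T
        (fun i => Θ.th i S' (H95.flip S S' e)
          (flipv S S' e.2 v))).compContinuousLinearMap (fderiv ℝ (H95.flip S S') e) := by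
  by_cases h : OnC S (rts e.1) e.2 v ∧ H95.Sep S e.2 v
  · exact H182.wterm_flip X Θ T he h.1 h.2 hz
  · rw [H182.term_eq_zero Θ hT he hv h]
    have h' : ¬ (OnC S' (rts (H95.flip S S' e).1) (H95.flip S S' e).2 (flipv S S' e.2 v) ∧
        H95.Sep S' (H95.flip S S' e).2 (flipv S S' e.2 v)) := by
      rintro ⟨h1, h2⟩
      refine h ⟨fun j => ⟨hv j, (H182.flipv_ne hz j).1 (h1 j).2⟩, fun i j hij h3 h4 => ?_⟩
      exact h2 i j hij h3 (H182.same_flip hz h4)
    rw [H182.term_eq_zero Θ hT (e := H95.flip S S' e) he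
      (fun j => H182.flipv_sq hz hv j) h', H182.zero_comp']

/-- the derivative of the change of charts -/
theorem fderiv_flip_single {S S' : L → Bool} {e : E} (hz : ∀ j, S j ≠ S' j → e.2 j ≠ 0) (j : L)
    (z : ℂ) : fderiv ℝ (H95.flip S S') e (0, Pi.single j z) =
      (0, Pi.single j ((if S j = S' j then 1 else -((e.2 j) ^ 2)⁻¹) * z)) := by
  have h1 : HasFDerivAt (H95.flip S S') (fderiv ℝ (H95.flip S S') e) e := by
    apply DifferentiableAt.hasFDerivAt
    obtain ⟨D, hD⟩ := H182.hasFDerivAt_fl2 hz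
    have h1 : HasFDerivAt (fun p : E => p.1) (ContinuousLinearMap.fst ℝ C6 (L → ℂ)) e :=
      hasFDerivAt_fst
    have h2 : HasFDerivAt (fun p : E => H182.fl2 S S' p.2)
        (D.comp (ContinuousLinearMap.snd ℝ C6 (L → ℂ))) e := hD.comp e hasFDerivAt_snd
    exact (h1.prodMk h2).differentiableAt
  have h2 : HasDerivAt (fun t : ℝ => e + t • ((0, Pi.single j z) : E)) (0, Pi.single j z) 0 := by
    simpa using ((hasDerivAt_id (0 : ℝ)).smul_const ((0, Pi.single j z) : E)).const_add e
  have h3 : HasDerivAt (fun t : ℝ => H95.flip S S' (e + t • ((0, Pi.single j z) : E)))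
      (fderiv ℝ (H95.flip S S') e (0, Pi.single j z)) 0 := by
    have h4 : HasFDerivAt (H95.flip S S') (fderiv ℝ (H95.flip S S') e)
        (e + (0 : ℝ) • ((0, Pi.single j z) : E)) := by simpa using h1
    exact h4.comp_hasDerivAt (0 : ℝ) h2
  have e1 : (fderiv ℝ (H95.flip S S') e (0, Pi.single j z)).1 = 0 := by
    have h6 : HasDerivAt (fun t : ℝ => (H95.flip S S' (e + t • ((0, Pi.single j z) : E))).1)
        (fderiv ℝ (H95.flip S S') e (0, Pi.single j z)).1 0 :=
      (ContinuousLinearMap.fst ℝ C6 (L → ℂ)).hasFDerivAt.comp_hasDerivAt (0 : ℝ) h3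
    have h5 : (fun t : ℝ => (H95.flip S S' (e + t • ((0, Pi.single j z) : E))).1) =
        fun _ => e.1 := by
      funext t; simp [H95.flip]
    rw [h5] at h6
    exact h6.unique (hasDerivAt_const _ _)
  refine Prod.ext e1 ?_
  funext i
  have h6 : HasDerivAt (fun t : ℝ => (H95.flip S S' (e + t • ((0, Pi.single j z) : E))).2 i)
      ((fderiv ℝ (H95.flip S S') e (0, Pi.single j z)).2 i) 0 :=
    hasDerivAt_pi.1 ((ContinuousLinearMap.snd ℝ C6 (L → ℂ)).hasFDerivAt.comp_hasDerivAt
      (0 : ℝ) h3) i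
  by_cases hij : i = j
  · subst hij
    have h7 : HasDerivAt (fun t : ℝ => e.2 i + (t : ℂ) * z) z 0 := by
      have h8 : HasDerivAt (fun t : ℝ => (t : ℂ) * z) z 0 := by
        simpa using (Complex.ofRealCLM.hasDerivAt (x := (0 : ℝ))).mul_const z
      exact h8.const_add _
    by_cases hS : S i = S' i
    · have h5 : (fun t : ℝ => (H95.flip S S' (e + t • ((0, Pi.single i z) : E))).2 i) =
          fun t : ℝ => e.2 i + (t : ℂ) * z := by
        funext t; simp [H95.flip, hS]
      rw [h5] at h6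
      rw [h6.unique h7]
      simp [hS]
    · have h5 : (fun t : ℝ => (H95.flip S S' (e + t • ((0, Pi.single i z) : E))).2 i) =
          fun t : ℝ => (e.2 i + (t : ℂ) * z)⁻¹ := by
        funext t; simp [H95.flip, hS]
      rw [h5] at h6
      have h8 := h7.inv (by simpa using hz i hS)
      rw [h6.unique h8]
      simp [hS]
      field_simp
  · have h5 : (fun t : ℝ => (H95.flip S S' (e + t • ((0, Pi.single j z) : E))).2 i) =
        fun _ : ℝ => (H95.flip S S' e).2 i := by
      funext t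
      simp [H95.flip, Pi.single_eq_of_ne hij]
    rw [h5] at h6
    rw [h6.unique (hasDerivAt_const _ _)]
    exact (Pi.single_eq_of_ne (M := fun _ : L => ℂ) hij _).symm

theorem fderiv_flip_base {S S' : L → Bool} {e : E} (hz : ∀ j, S j ≠ S' j → e.2 j ≠ 0) (w : C6) :
    fderiv ℝ (H95.flip S S') e (w, 0) = (w, 0) := by
  rw [H182.fderiv_flip hz]
  simp

/-- **the far factors** -/
theorem flip_frame (Θ : Alt (16 + 14) E) {S S' : L → Bool} {e : E}
    (hz : ∀ j, S j ≠ S' j → e.2 j ≠ 0) (B : Fin 2 → C6) :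
    |(Θ.compContinuousLinearMap (fderiv ℝ (H95.flip S S') e))
      (H811.vec (n := 28) (k := 2) vb B)| =
      (∏ j, if S j = S' j then 1 else (‖e.2 j‖ ^ 4)⁻¹) *
        |Θ (H811.vec (n := 28) (k := 2) vb B)| := by
  set f : L → ℂ := fun j => if S j = S' j then 1 else -((e.2 j) ^ 2)⁻¹ with hf
  have h1 : (fun i => fderiv ℝ (H95.flip S S') e (H811.vec (n := 28) (k := 2) vb B i)) =
      Sum.elim (fun a => ((B a, 0) : E))
        (fr (chg (Matrix.diagonal f) (ev (ι := L) C6))) ∘ sgm.symm := by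
    rw [vec_eq]
    funext i
    simp only [Function.comp_apply]
    rcases sgm.symm i with a' | ⟨j, i'⟩
    · simp only [Sum.elim_inl]
      exact fderiv_flip_base hz _
    · simp only [Sum.elim_inr, fr]
      rw [ev_apply, fderiv_flip_single hz, chg_apply, Finset.sum_eq_single j]
      · rw [Matrix.diagonal_apply_eq, ev_apply]
      · intro i hi hij
        rw [Matrix.diagonal_apply_ne _ (Ne.symm hij), zero_mul, map_zero]
      · intro h'; exact absurd (Finset.mem_univ _) h'
  have h2 := frame_eq sgm (Θ.toAlternatingMap) (ev (ι := L) C6) (Matrix.diagonal f)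
    (fun a => ((B a, 0) : E)) (fun a => ((B a, 0) : E)) (fun _ => 0) (fun a => by
      rw [vert_ev]; simp)
  have h3 : Θ (Sum.elim (fun a => ((B a, 0) : E))
      (fr (chg (Matrix.diagonal f) (ev (ι := L) C6))) ∘ sgm.symm) =
      ‖(Matrix.diagonal f).det‖ ^ 2 • Θ (Sum.elim (fun a => ((B a, 0) : E))
        (fr (ev (ι := L) C6)) ∘ sgm.symm) := h2
  have h4 : (Θ.compContinuousLinearMap (fderiv ℝ (H95.flip S S') e))
      (H811.vec (n := 28) (k := 2) vb B) =
      Θ (fun i => fderiv ℝ (H95.flip S S') e (H811.vec (n := 28) (k := 2) vb B i)) := rfl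
  rw [h4, h1, h3, vec_eq, smul_eq_mul, abs_mul, Matrix.det_diagonal, norm_prod]
  congr 1
  rw [abs_of_nonneg (by positivity), ← Finset.prod_pow]
  refine Finset.prod_congr rfl fun j _ => ?_
  by_cases h : S j = S' j
  · simp [hf, h]
  · simp only [hf, h, if_false, norm_neg, norm_inv, norm_pow]
    rw [← inv_pow, ← inv_pow]
    ring

/-! ### the product of the costs -/

section Cost

variable (R : H852.Reg L Unit)

theorem prod_plc {M : Type*} [CommMonoid M] (f : Fin 2 ⊕ L × Fin 2 → M) :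
    ∏ i : Fin (16 + 14), f (plc i) = (f (Sum.inl 0) * f (Sum.inl 1)) *
      ∏ s : R.Gf ⊕ R.Kc, (f (Sum.inr (eqv R s, 0)) * f (Sum.inr (eqv R s, 1))) := by
  have h1 : ∏ i : Fin (16 + 14), f (plc i) = ∏ i : Fin (16 + 14), f (sgm.symm i) := rfl
  rw [h1, Equiv.prod_comp sgm.symm f, Fintype.prod_sum_type, Fin.prod_univ_two,
    Fintype.prod_prod_type, ← Equiv.prod_comp (eqv R)]
  congr 1
  refine Finset.prod_congr rfl fun s _ => ?_
  rw [Fin.prod_univ_two]

/-- **the product of the costs** -/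
theorem prod_cst (y a : ℝ) (hy : 0 < y) (o : Fin 5 → ℂ) (x : Cd R)
    (b : Fin 2 → Dir1 (to1 R) (m1 R)) :
    ∏ i, cst (co1 R y a o x) (d30 R b i) =
      (cst (co1 R y a o x) (b 0) * cst (co1 R y a o x) (b 1)) *
        ∏ g : R.Gf, max (Real.exp (-x.1.1 g)) y⁻¹ := by
  have h := prod_plc R (fun q => cst (co1 R y a o x) (match q with
    | Sum.inl a => b a
    | Sum.inr q => dof R ((eqv R).symm q.1) q.2))
  have h0 : ∏ i, cst (co1 R y a o x) (d30 R b i) =
      ∏ i, cst (co1 R y a o x) (match plc i with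
    | Sum.inl a => b a
    | Sum.inr q => dof R ((eqv R).symm q.1) q.2) := rfl
  rw [h0, h]
  congr 1
  rw [Fintype.prod_sum_type]
  have h2 : ∏ d : R.Kc, (cst (co1 R y a o x) (dof R ((eqv R).symm (eqv R (Sum.inr d))) 0) *
      cst (co1 R y a o x) (dof R ((eqv R).symm (eqv R (Sum.inr d))) 1)) = 1 := by
    refine Finset.prod_eq_one fun d _ => ?_
    simp only [Equiv.symm_apply_apply, dof, if_true]
    simp [cst]
  change (∏ g : R.Gf, (cst (co1 R y a o x) (dof R ((eqv R).symm (eqv R (Sum.inl g))) 0) *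
      cst (co1 R y a o x) (dof R ((eqv R).symm (eqv R (Sum.inl g))) 1))) *
    (∏ d : R.Kc, (cst (co1 R y a o x) (dof R ((eqv R).symm (eqv R (Sum.inr d))) 0) *
      cst (co1 R y a o x) (dof R ((eqv R).symm (eqv R (Sum.inr d))) 1))) = _
  rw [h2, mul_one]
  refine Finset.prod_congr rfl fun g _ => ?_
  simp only [Equiv.symm_apply_apply, dof, if_true]
  have h3 : (1 : Fin 2) ≠ 0 := by decide
  rw [if_neg h3]
  simp only [cst, co1_u]
  have h4 : (co1 R y a o x).2.2.1 () = y := rfl
  rw [h4]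
  exact Real.mul_self_sqrt (le_max_of_le_right (inv_nonneg.2 hy.le))

end Cost

end Vale.Agent.P273.H879
end
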