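import Vale.Agent.P273.H879.Pt
import Vale.Agent.P273.H828.NegFin
import Vale.Agent.P273.H752.Cpt1

/-!
P273, row NEG: the pointwise bound of the integrand, and the proof of `KeyNeg`.
-/

set_option linter.unusedSectionVars false
set_option linter.unusedSimpArgs false

noncomputable section

namespace Vale.Agent.P273.H879

open Set Filter MeasureTheory H95 H852 H732 H793 H973 H266
open H681 (C6)
open H828 (bv jo zz fam bw pr)
open scoped Topology ContDiff

/-! ### base directions -/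

/-- the base directions -/
inductive Bd : Type
  | y
  | al
  | re (a : Fin 5)
  | im (a : Fin 5)

/-- as directions of the chart -/
def Bd.dir {R : Region1} {m : Fin (R.n + 1)} : Bd → Dir1 R m
  | .y => .y ()
  | .al => .al ()
  | .re a => .re (Sum.inr a)
  | .im a => .im (Sum.inr a)

/-- the vectors -/
def Bd.vec (k : Fin 5) (l s : ℝ) : Bd → C6
  | .y => pr k 0 0 (-(zz l s) / 2)
  | .al => pr k 0 0 (zz l s * Complex.I / 2)
  | .re a => bw k a 1
  | .im a => bw k a Complex.I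

/-- the costs -/
def Bd.cost (y : ℝ) : Bd → ℝ
  | .y => y⁻¹
  | .al => Real.sqrt y⁻¹
  | .re _ => 1
  | .im _ => 1

theorem Bd.cost_nonneg {y : ℝ} (hy : 0 ≤ y) (β : Bd) : 0 ≤ β.cost y := by
  cases β <;> simp only [Bd.cost] <;> positivity

section

variable {R : H852.Reg L Unit} {R₀ : ℝ}

theorem zh_pt1 {k : Fin 5} {c l s : ℝ} (hc : 0 < c) {b : C6} (x : Cd R) :
    zh c (pt1 R R₀ k b c l s x) = zz l s ∧ (toE k c (pt1 R R₀ k b c l s x)).1 = fam k b l s :=
  H828.toE_fam' hc rfl (by simp [pt1, co1]; ring) fun a => rfl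

theorem base_vec {k : Fin 5} {c l s : ℝ} (hc : 0 < c) {b : C6} (x : Cd R) (β : Bd) :
    (fderiv ℝ (toE k c) (pt1 R R₀ k b c l s x) (evec (pt1 R R₀ k b c l s x) β.dir)).1 =
      β.vec k l s := by
  have hd : HasFDerivAt (toE k c) (fderiv ℝ (toE k c) (pt1 R R₀ k b c l s x))
      (pt1 R R₀ k b c l s x) :=
    ((H401.Ch1.contDiff_toE (n := 1) k c).differentiable (by simp)).differentiableAt.hasFDerivAt
  have hz := (zh_pt1 (R := R) (R₀ := R₀) (k := k) (l := l) (s := s) hc (b := b) x).1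
  rw [H828.base_of_hasFDerivAt hd]
  cases β with
  | y =>
    change H828.dbase k c _ ((wr (to1 R) (m1 R)).eul _ ()) = _
    rw [H828.dbase_eul, hz]
    rfl
  | al =>
    change H828.dbase k c _ ((wr (to1 R) (m1 R)).vec (.al ())) = _
    rw [H828.dbase_al, hz]
    rfl
  | re a =>
    change H828.dbase k c _ ((wr (to1 R) (m1 R)).vec (.re (Sum.inr a))) = _
    rw [H828.dbase_re]
    rfl
  | im a =>
    change H828.dbase k c _ ((wr (to1 R) (m1 R)).vec (.im (Sum.inr a))) = _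
    rw [H828.dbase_im]
    rfl

theorem cst_dir {k : Fin 5} {c l s : ℝ} {b : C6} (x : Cd R) (β : Bd) :
    cst (pt1 R R₀ k b c l s x) β.dir = β.cost (2 * (l + Real.log c)) := by
  cases β <;> rfl

theorem yq_sq {k : Fin 5} {b : C6} {c l s : ℝ} {x : Cd R} {j : L} {t : Bool}
    (h : R.A j = Sum.inr t) :
    yq R k b c l s x j ^ 2 = sx (rts (fam k b l s)) (xq R k b c l s x j) := by
  rw [yq_core k b c l s x h]
  cases t
  · rw [if_neg (by simp), neg_sq, H266.csq_sq]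
  · rw [if_pos rfl, H266.csq_sq]

/-- the positions as a change of charts -/
theorem flip_pt1 {k : Fin 5} {b : C6} {c l s : ℝ} (hc : 0 < c) (x : Cd R) :
    H95.flip (Sf R R₀ x.2) S0 (toE k c (pt1 R R₀ k b c l s x)) =
      (fam k b l s, xq R k b c l s x) := by
  refine Prod.ext (zh_pt1 hc x).2 ?_
  funext j
  change (if Sf R R₀ x.2 j = false then (to1 R).pos (toSp c (pt1 R R₀ k b c l s x)) j
    else ((to1 R).pos (toSp c (pt1 R R₀ k b c l s x)) j)⁻¹) = _
  rw [pos_pt1]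
  cases h : Sf R R₀ x.2 j
  · simp
  · simp

theorem xq_ne {k : Fin 5} {b : C6} {c l s : ℝ} (hR : 0 ≤ R₀) {x : Cd R} {j : L}
    (h : Sf R R₀ x.2 j = true) : R₀ < ‖xq R k b c l s x j‖ := by
  obtain ⟨t, ht⟩ := Sf_true h
  rw [xq_core k b c l s x ht]
  exact (Sf_core x.2 ht).1 h

theorem flipv_pt1 {k : Fin 5} {b : C6} {c l s : ℝ} (hR : 0 ≤ R₀) (x : Cd R) :
    flipv (Sf R R₀ x.2) S0 (toE k c (pt1 R R₀ k b c l s x)).2 (vq R R₀ k b c l s x) =
      yq R k b c l s x := by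
  funext j
  change (if Sf R R₀ x.2 j = false then vq R R₀ k b c l s x j
    else vq R R₀ k b c l s x j * (((to1 R).pos (toSp c (pt1 R R₀ k b c l s x)) j)⁻¹) ^ 3) = _
  rw [pos_pt1]
  cases h : Sf R R₀ x.2 j
  · simp [vq, flipv, h]
  · have h1 := xq_ne (k := k) (b := b) (c := c) (l := l) (s := s) hR h
    have h2 : xq R k b c l s x j ≠ 0 := by
      intro h3
      rw [h3, norm_zero] at h1
      linarith
    simp only [vq, flipv, h, Bool.false_eq_true, if_false, if_true, inv_inv,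
      Bool.true_eq_false, reduceCtorEq]
    field_simp

theorem jac_nkD (k : Fin 5) (b : C6) (c l s : ℝ) (u θ : R.Gf → ℝ) :
    R.jac (nd0 c (2 * (l + Real.log c)) (-(2 * (Real.pi * s))) (bv k b))
      (R.tau (nd0 c (2 * (l + Real.log c)) (-(2 * (Real.pi * s))) (bv k b)) u θ) =
      R.jac (nkD k b c l s) (R.tau (nkD k b c l s) u θ) := rfl

theorem frame_pt1 {k : Fin 5} {b : C6} {c l s : ℝ} (hc : 0 < c) (x : Cd R)
    (W : Alt (16 + 14) E) (β : Fin 2 → Bd) :
    |W (fun i => fderiv ℝ (toE k c) (pt1 R R₀ k b c l s x)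
      (evec (pt1 R R₀ k b c l s x) (d30 R (fun i => (β i).dir) i)))| =
      R.jac (nkD k b c l s) (R.tau (nkD k b c l s) x.1.1 x.1.2) *
        |W (H811.vec (n := 28) (k := 2) vb fun i => (β i).vec k l s)| := by
  have h1 := frame_S R k c (2 * (l + Real.log c)) (-(2 * (Real.pi * s))) (bv k b)
    (x.1, zf R R₀ x.2) W (fun i => (β i).dir)
  have hpt : co1 R (2 * (l + Real.log c)) (-(2 * (Real.pi * s))) (bv k b)
      (x.1, zf R R₀ x.2) = pt1 R R₀ k b c l s x := rfl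
  have h2 : (fun i => (fderiv ℝ (toE k c) (pt1 R R₀ k b c l s x)
      (evec (pt1 R R₀ k b c l s x) (β i).dir)).1) = fun i => (β i).vec k l s :=
    funext fun i => base_vec hc x (β i)
  rw [hpt, jac_nkD, h2] at h1
  exact h1

theorem flip_term (X : Ext) (Θ : Gauge) {T : MT} (hT : SymT T) {k : Fin 5} {b : C6} {c l s : ℝ}
    (hc : 0 < c) (hR : 0 ≤ R₀) {x : Cd R} (hX : fam k b l s ∈ H681.XX)
    (hv : ∀ j, vq R R₀ k b c l s x j ^ 2 = pol (Sf R R₀ x.2 j) (rts (fam k b l s))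
      ((to1 R).pos (toSp c (pt1 R R₀ k b c l s x)) j)) (B : Fin 2 → C6) :
    |wedgeT (GR X.G (Sf R R₀ x.2) (toE k c (pt1 R R₀ k b c l s x)) (vq R R₀ k b c l s x)) T
        (fun i => Θ.th i (Sf R R₀ x.2) (toE k c (pt1 R R₀ k b c l s x))
          (vq R R₀ k b c l s x)) (H811.vec (n := 28) (k := 2) vb B)| =
      (∏ j, if Sf R R₀ x.2 j = true then ‖xq R k b c l s x j‖ ^ 4 else 1) *
      |wedgeT (GR X.G S0 (fam k b l s, xq R k b c l s x) (yq R k b c l s x)) T
        (fun i => Θ.th i S0 (fam k b l s, xq R k b c l s x) (yq R k b c l s x))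
        (H811.vec (n := 28) (k := 2) vb B)| := by
  have hz : ∀ j, Sf R R₀ x.2 j ≠ S0 j → (toE k c (pt1 R R₀ k b c l s x)).2 j ≠ 0 := by
    intro j hj
    have hj' : Sf R R₀ x.2 j = true := by
      cases h : Sf R R₀ x.2 j
      · exact absurd h hj
      · rfl
    change (to1 R).pos (toSp c (pt1 R R₀ k b c l s x)) j ≠ 0
    rw [pos_pt1, if_pos hj']
    apply inv_ne_zero
    intro h3
    have h4 := xq_ne (k := k) (b := b) (c := c) (l := l) (s := s) hR hj'
    rw [h3, norm_zero] at h4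
    linarith
  have he1 : (toE k c (pt1 R R₀ k b c l s x)).1 = fam k b l s := (zh_pt1 hc x).2
  have h4 := wterm_chg X Θ hT (S := Sf R R₀ x.2) (S' := S0)
    (e := toE k c (pt1 R R₀ k b c l s x)) (v := vq R R₀ k b c l s x) (by rw [he1]; exact hX)
    (fun j => by rw [he1]; exact hv j) hz
  rw [flip_pt1 hc, flipv_pt1 hR] at h4
  rw [h4, flip_frame _ hz]
  congr 1
  refine Finset.prod_congr rfl fun j _ => ?_
  change (if Sf R R₀ x.2 j = false then (1 : ℝ)
    else (‖(to1 R).pos (toSp c (pt1 R R₀ k b c l s x)) j‖ ^ 4)⁻¹) = _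
  rw [pos_pt1]
  cases h : Sf R R₀ x.2 j
  · simp
  · simp

theorem ig_xq (X : Ext) (Θ : Gauge) (T : MT) (k : Fin 5) (b : C6) (c l s : ℝ) (x : Cd R)
    (B : Fin 2 → C6) : ig X Θ T (fam k b l s) B
      (R.pos (nkD k b c l s) (R.tau (nkD k b c l s) x.1.1 x.1.2) x.2) =
      wedgeT (GR X.G S0 (fam k b l s, xq R k b c l s x) (yq R k b c l s x)) T
        (fun i => Θ.th i S0 (fam k b l s, xq R k b c l s x) (yq R k b c l s x))
        (H811.vec (n := 28) (k := 2) vb B) := by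
  have ex : (fun j => (R.pos (nkD k b c l s) (R.tau (nkD k b c l s) x.1.1 x.1.2) x.2 j).1) =
      xq R k b c l s x := rfl
  have ey : (fun j => (R.pos (nkD k b c l s) (R.tau (nkD k b c l s) x.1.1 x.1.2) x.2 j).2) =
      yq R k b c l s x := rfl
  unfold ig
  rw [ex, ey]

/-- **(C), the pointwise identity** -/
theorem ig_eq (X : Ext) (Θ : Gauge) {T : MT} (hT : SymT T) {k : Fin 5} {b : C6} {c l s : ℝ}
    (hc : 0 < c) (hR : 0 ≤ R₀) {x : Cd R} (hX : fam k b l s ∈ H681.XX)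
    (hv : ∀ j, vq R R₀ k b c l s x j ^ 2 = pol (Sf R R₀ x.2 j) (rts (fam k b l s))
      ((to1 R).pos (toSp c (pt1 R R₀ k b c l s x)) j)) (β : Fin 2 → Bd) :
    |wedgeT (GR X.G (Sf R R₀ x.2) (toE k c (pt1 R R₀ k b c l s x))
        ((to1 R).sht (toSp c (pt1 R R₀ k b c l s x)) (gv k b) (vq R R₀ k b c l s x))) T
        (fun i => Θ.th i (Sf R R₀ x.2) (toE k c (pt1 R R₀ k b c l s x))
          ((to1 R).sht (toSp c (pt1 R R₀ k b c l s x)) (gv k b) (vq R R₀ k b c l s x)))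
        (fun i => fderiv ℝ (toE k c) (pt1 R R₀ k b c l s x)
          (evec (pt1 R R₀ k b c l s x) (d30 R (fun i => (β i).dir) i)))| =
      (R.jac (nkD k b c l s) (R.tau (nkD k b c l s) x.1.1 x.1.2) *
        |ig X Θ T (fam k b l s) (fun i => (β i).vec k l s)
          (R.pos (nkD k b c l s) (R.tau (nkD k b c l s) x.1.1 x.1.2) x.2)|) *
        ∏ j, if Sf R R₀ x.2 j = true then ‖xq R k b c l s x j‖ ^ 4 else 1 := by
  have e1 : (to1 R).sht (toSp c (pt1 R R₀ k b c l s x)) (gv k b) (vq R R₀ k b c l s x) =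
      vq R R₀ k b c l s x := funext fun j => sht_pt1 k b c l s x j
  rw [e1, frame_pt1 hc x, flip_term X Θ hT hc hR hX hv, ig_xq]
  ring

end

/-! ### the weight -/

/-- the weight of a core mark -/
def wgt (R₀ : ℝ) (z : ℂ) : ℝ := (1 + R₀) ^ 4 * (1 + ‖z‖) ^ (-(4 : ℝ))

theorem wgt_nonneg {R₀ : ℝ} (z : ℂ) : 0 ≤ wgt R₀ z := by
  unfold wgt; positivity

theorem integrable_wgt (R₀ : ℝ) : Integrable (wgt R₀) := by
  unfold wgt
  refine Integrable.const_mul ?_ _
  exact integrable_one_add_norm (by simp [Complex.finrank_real_complex]; norm_num)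

theorem le_wgt {R₀ : ℝ} (hR : 1 ≤ R₀) (z : ℂ) :
    (if R₀ < ‖z‖ then (‖z‖ ^ 4)⁻¹ else 1) ≤ wgt R₀ z := by
  have h0 : (1 + ‖z‖) ^ (-(4 : ℝ)) = ((1 + ‖z‖) ^ 4)⁻¹ := by
    rw [Real.rpow_neg (by positivity)]
    congr 1
    exact Real.rpow_natCast _ 4
  unfold wgt
  rw [h0]
  have hz : 0 ≤ ‖z‖ := norm_nonneg z
  split_ifs with h
  · have h1 : (0 : ℝ) < ‖z‖ := by linarith
    rw [← div_eq_mul_inv, ← one_div, div_le_div_iff₀ (by positivity) (by positivity)]
    have h2 : 1 + ‖z‖ ≤ (1 + R₀) * ‖z‖ := by nlinarith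
    calc 1 * (1 + ‖z‖) ^ 4 = (1 + ‖z‖) ^ 4 := one_mul _
      _ ≤ ((1 + R₀) * ‖z‖) ^ 4 := pow_le_pow_left₀ (by positivity) h2 4
      _ = _ := by ring
  · rw [← div_eq_mul_inv, one_le_div (by positivity)]
    exact pow_le_pow_left₀ (by positivity) (by linarith) 4

section

variable {R : H852.Reg L Unit} {R₀ : ℝ}

/-- the far factors as a product over the core marks -/
theorem prod_far (k : Fin 5) (b : C6) (c l s : ℝ) (x : Cd R) :
    (∏ j, if Sf R R₀ x.2 j = true then ‖xq R k b c l s x j‖ ^ 4 else (1 : ℝ)) =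
      ∏ d : R.Kc, if R₀ < ‖x.2 d‖ then ‖x.2 d‖ ^ 4 else 1 := by
  rw [← Equiv.prod_comp (eqv R), Fintype.prod_sum_type]
  have h1 : (∏ g : R.Gf, if Sf R R₀ x.2 (eqv R (Sum.inl g)) = true then
      ‖xq R k b c l s x (eqv R (Sum.inl g))‖ ^ 4 else (1 : ℝ)) = 1 := by
    refine Finset.prod_eq_one fun g _ => ?_
    have h : R.A (eqv R (Sum.inl g)) = Sum.inl () := (R.ord g.1 g.2).2
    rw [Sf_neck x.2 h]
    simp
  rw [h1, one_mul]
  refine Finset.prod_congr rfl fun d _ => ?_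
  obtain ⟨t, ht⟩ : ∃ t, R.A (eqv R (Sum.inr d)) = Sum.inr t := by
    rcases h : R.A (eqv R (Sum.inr d)) with u | t
    · exact absurd h (d.2 u)
    · exact ⟨t, rfl⟩
  rw [xq_core k b c l s x ht]
  have h2 := Sf_core (R₀ := R₀) x.2 ht
  have h3 : (⟨eqv R (Sum.inr d), fun k hk => by rw [ht] at hk; cases hk⟩ : R.Kc) = d := rfl
  rw [h3] at h2 ⊢
  by_cases h4 : R₀ < ‖x.2 d‖
  · rw [if_pos (h2.2 h4), if_pos h4]
  · rw [if_neg (fun h5 => h4 (h2.1 h5)), if_neg h4]

end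

end Vale.Agent.P273.H879
end
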