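import Vale.Agent.P273.H879.Neg

/-!
P273, row NEG: `KeyNeg` and `NegOf` from the inputs `InRegOf` and `PhiLe`.
-/

set_option linter.unusedSectionVars false
set_option linter.unusedSimpArgs false

noncomputable section

namespace Vale.Agent.P273.H879

open Set Filter MeasureTheory H95 H852 H732 H793 H973 H266
open H681 (C6)
open H828 (bv jo zz fam bw pr)
open scoped Topology ContDiff

section

variable {R : H852.Reg L Unit} {R₀ : ℝ}

theorem vq_sq {k : Fin 5} {K : Set C6} {b : C6} {c l s M₀ : ℝ} (hc : 0 < c) {x : Cd R}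
    (hb : ∀ i, b k.castSucc ≠ b (jo k i))
    (h : InReg k K c R₀ M₀ (Sf R R₀ x.2) (pt1 R R₀ k b c l s x) (gv k b)
      (vq R R₀ k b c l s x)) (j : L) :
    vq R R₀ k b c l s x j ^ 2 = pol (Sf R R₀ x.2 j) (rts (fam k b l s))
      ((to1 R).pos (toSp c (pt1 R R₀ k b c l s x)) j) := by
  have h1 := H883.sht_sq (R := to1 R) (S := Sf R R₀ x.2)
    (p := toSp c (pt1 R R₀ k b c l s x)) (g := gv k b) (v := vq R R₀ k b c l s x) h.far
    (fun i => hb i) h.sheet j
  rw [sht_pt1, H401.Ch1.cf_toSp k c, (zh_pt1 hc x).2] at h1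
  exact h1

/-- **(C)** -/
theorem ig_le (X : Ext) (Θ : Gauge) {T : MT} (hT : SymT T) {k : Fin 5} {K : Set C6} {b : C6}
    {c l s M₀ C : ℝ} (hc : 0 < c) (hR : 1 ≤ R₀) (hC : 0 ≤ C) (hy : 0 < 2 * (l + Real.log c))
    {x : Cd R} (hX : fam k b l s ∈ H681.XX) (hb : ∀ i, b k.castSucc ≠ b (jo k i))
    (h : InReg k K c R₀ M₀ (Sf R R₀ x.2) (pt1 R R₀ k b c l s x) (gv k b)
      (vq R R₀ k b c l s x))
    (hB : ∀ (R : Region1) (m : Fin (R.n + 1)) (S : L → Bool) (p : Co1 R m) (g : ℂ) (v : L → ℂ),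
      InReg k K c R₀ M₀ S p g v → ∀ d : Fin (16 + 14) → Dir1 R m,
      ‖wedgeT (GR X.G S (toE k c p) (R.sht (toSp c p) g v)) T
        (fun i => Θ.th i S (toE k c p) (R.sht (toSp c p) g v))
        (fun i => fderiv ℝ (toE k c) p (evec p (d i)))‖ ≤ C * ∏ i, cst p (d i))
    (β : Fin 2 → Bd) :
    R.jac (nkD k b c l s) (R.tau (nkD k b c l s) x.1.1 x.1.2) *
        |ig X Θ T (fam k b l s) (fun i => (β i).vec k l s)
          (R.pos (nkD k b c l s) (R.tau (nkD k b c l s) x.1.1 x.1.2) x.2)| ≤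
      (C * ((β 0).cost (2 * (l + Real.log c)) * (β 1).cost (2 * (l + Real.log c)))) *
        (∏ g, max (Real.exp (-x.1.1 g)) (2 * (l + Real.log c))⁻¹) * ∏ d, wgt R₀ (x.2 d) := by
  have h1 := hB (to1 R) (m1 R) _ _ _ _ h (d30 R fun i => (β i).dir)
  rw [Real.norm_eq_abs, ig_eq X Θ hT hc (by linarith) hX (vq_sq hc hb h) β, prod_far] at h1
  have h2 : ∏ i, cst (pt1 R R₀ k b c l s x) (d30 R (fun i => (β i).dir) i) =
      ((β 0).cost (2 * (l + Real.log c)) * (β 1).cost (2 * (l + Real.log c))) *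
        ∏ g, max (Real.exp (-x.1.1 g)) (2 * (l + Real.log c))⁻¹ := by
    have h3 := prod_cst R (2 * (l + Real.log c)) (-(2 * (Real.pi * s))) hy (bv k b)
      (x.1, zf R R₀ x.2) (fun i => (β i).dir)
    have hpt : co1 R (2 * (l + Real.log c)) (-(2 * (Real.pi * s))) (bv k b)
        (x.1, zf R R₀ x.2) = pt1 R R₀ k b c l s x := rfl
    rw [hpt, cst_dir, cst_dir] at h3
    exact h3
  rw [h2] at h1
  set J := R.jac (nkD k b c l s) (R.tau (nkD k b c l s) x.1.1 x.1.2) *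
    |ig X Θ T (fam k b l s) (fun i => (β i).vec k l s)
      (R.pos (nkD k b c l s) (R.tau (nkD k b c l s) x.1.1 x.1.2) x.2)| with hJ
  set Q := ∏ g, max (Real.exp (-x.1.1 g)) (2 * (l + Real.log c))⁻¹ with hQ
  set cc := (β 0).cost (2 * (l + Real.log c)) * (β 1).cost (2 * (l + Real.log c)) with hcc
  have hcc0 : 0 ≤ cc := mul_nonneg (Bd.cost_nonneg hy.le _) (Bd.cost_nonneg hy.le _)
  have hQ0 : 0 ≤ Q := Finset.prod_nonneg fun g _ => le_max_of_le_left (Real.exp_pos _).le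
  have h4 : (∏ d : R.Kc, if R₀ < ‖x.2 d‖ then ‖x.2 d‖ ^ 4 else (1 : ℝ)) *
      (∏ d : R.Kc, if R₀ < ‖x.2 d‖ then (‖x.2 d‖ ^ 4)⁻¹ else (1 : ℝ)) = 1 := by
    rw [← Finset.prod_mul_distrib]
    refine Finset.prod_eq_one fun d _ => ?_
    by_cases h5 : R₀ < ‖x.2 d‖
    · rw [if_pos h5, if_pos h5, mul_inv_cancel₀]
      have : 0 < ‖x.2 d‖ := by linarith
      positivity
    · rw [if_neg h5, if_neg h5, one_mul]
  have h6 : 0 ≤ ∏ d : R.Kc, if R₀ < ‖x.2 d‖ then (‖x.2 d‖ ^ 4)⁻¹ else (1 : ℝ) :=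
    Finset.prod_nonneg fun d _ => by split_ifs <;> positivity
  have h7 : (∏ d : R.Kc, if R₀ < ‖x.2 d‖ then (‖x.2 d‖ ^ 4)⁻¹ else (1 : ℝ)) ≤
      ∏ d, wgt R₀ (x.2 d) :=
    Finset.prod_le_prod (fun d _ => by split_ifs <;> positivity) fun d _ => le_wgt hR _
  calc J = (J * ∏ d : R.Kc, if R₀ < ‖x.2 d‖ then ‖x.2 d‖ ^ 4 else (1 : ℝ)) *
        ∏ d : R.Kc, if R₀ < ‖x.2 d‖ then (‖x.2 d‖ ^ 4)⁻¹ else (1 : ℝ) := by
        rw [mul_assoc, h4, mul_one]
    _ ≤ (C * (cc * Q)) * ∏ d : R.Kc, if R₀ < ‖x.2 d‖ then (‖x.2 d‖ ^ 4)⁻¹ else (1 : ℝ) :=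
        mul_le_mul_of_nonneg_right h1 h6
    _ ≤ (C * (cc * Q)) * ∏ d, wgt R₀ (x.2 d) :=
        mul_le_mul_of_nonneg_left h7 (by positivity)
    _ = _ := by ring

end

/-- **the bound of `PhiF` on the base vectors** -/
theorem key_bound (hI : InRegOf) (hP : PhiLe) (X : Ext) (Θ : Gauge) (hΘ : Asy1 Θ) (k : Fin 5)
    (T : MT) (hT : SymT T) (hs : ∀ x : Fin 14 → H4, T (fun i => sH k (x i)) = T x) (K : Set C6)
    (hK : K ⊆ H828.XD k) (hKc : IsCompact K) :
    ∃ (c M₀ C : ℝ), 0 < c ∧ 1 ≤ M₀ ∧ 0 ≤ C ∧ ∀ b ∈ K, ∀ l s : ℝ, s ∈ Icc (0 : ℝ) 1 →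
      M₀ ≤ 2 * (l + Real.log c) → ∀ β : Fin 2 → Bd,
      |PhiF X Θ T (fam k b l s) (fun i => (β i).vec k l s)| ≤
        C * ((β 0).cost (2 * (l + Real.log c)) * (β 1).cost (2 * (l + Real.log c))) := by
  obtain ⟨ad, had⟩ := H828.exists_isAd k
  obtain ⟨c1, hc1, h1⟩ := bnd H401.Ch1.derOf H401.Ch1.pullOf X (H752.cptOf X) Θ hΘ k T hT hs ad
    had K hK hKc
  obtain ⟨c2, hc2, h2⟩ := hI k K hK hKc
  obtain ⟨l₁, hl1, hmem⟩ := H828.fam_mem' k hK hKc
  have hc : 0 < min c1 c2 := lt_min hc1 hc2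
  set c := min c1 c2 with hcdef
  obtain ⟨R1, hR1, h1⟩ := h1 c hc (min_le_left _ _)
  obtain ⟨R2, hR2, h2⟩ := h2 c hc (min_le_right _ _)
  set R₀ := max 1 (max R1 R2) with hR₀
  obtain ⟨M1, C, hM1, hC, h1⟩ := h1 R₀ ((le_max_left _ _).trans (le_max_right _ _))
  obtain ⟨M2, h2⟩ := h2 R₀ ((le_max_right _ _).trans (le_max_right _ _)) M1
  have hNw : 0 ≤ Nw (wgt R₀) := by
    unfold Nw
    refine Finset.sum_nonneg fun R _ => mul_nonneg (by positivity) (pow_nonneg ?_ _)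
    exact integral_nonneg fun z => wgt_nonneg z
  refine ⟨c, max 1 (max M2 (2 * (l₁ + Real.log c))), C * Nw (wgt R₀), hc, le_max_left _ _,
    mul_nonneg hC hNw, fun b hb l s hs' hM β => ?_⟩
  have hy1 : 1 ≤ 2 * (l + Real.log c) := (le_max_left _ _).trans hM
  have hM2 : M2 ≤ 2 * (l + Real.log c) :=
    ((le_max_left _ _).trans (le_max_right _ _)).trans hM
  have hl : l₁ ≤ l := by
    have := ((le_max_right M2 _).trans (le_max_right _ _)).trans hM
    linarith
  have hX : fam k b l s ∈ H681.XX := hmem b hb l hl s hs'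
  have hgood := good_nkD (k := k) (b := b) (s := s) hc (by linarith : 0 < l + Real.log c)
    (ne_of_XD (hK hb))
  have hF : volume (Set.range (fam k b l s)) = 0 :=
    (Set.finite_range (fam k b l s)).measure_zero volume
  have key := hP X Θ T hT (fam k b l s) hX (fun i => (β i).vec k l s) (nkD k b c l s) hgood
    (fun x => rfl) hy1 (wgt R₀) wgt_nonneg (integrable_wgt R₀)
    (C * ((β 0).cost (2 * (l + Real.log c)) * (β 1).cost (2 * (l + Real.log c))))
    (mul_nonneg hC (mul_nonneg (Bd.cost_nonneg (by linarith) _)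
      (Bd.cost_nonneg (by linarith) _))) (fun R => by
      filter_upwards [ae_meas R (nkD k b c l s) hgood hF] with x hx
      have hreg := h2 b hb l s hs' hM2 R x hx.1 hx.2.1 (fun d => (hx.2.2.1 d).1)
        (fun d i h => (hx.2.2.1 d).2 ⟨i, h.symm⟩) (fun i => hx.2.2.2 () i)
      exact ig_le X Θ hT hc (le_max_left _ _) hC (by linarith) hX (ne_of_XD (hK hb)) hreg
        h1 β)
  refine key.trans (le_of_eq ?_)
  ring

theorem phi_pair {b : C6} {X : Ext} {Θ : Gauge} {T : MT} (u v : C6) (p q : ℝ) :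
    PhiF X Θ T b ![p • u, q • v] = (p * q) * PhiF X Θ T b ![u, v] := by
  have h1 : (![p • u, q • v] : Fin 2 → C6) = fun i => (![p, q] : Fin 2 → ℝ) i •
      (![u, v] : Fin 2 → C6) i := by
    funext i
    fin_cases i <;> rfl
  have h2 := (PhiF X Θ T b).toContinuousMultilinearMap.map_smul_univ (![p, q] : Fin 2 → ℝ)
    (![u, v] : Fin 2 → C6)
  rw [h1]
  refine Eq.trans h2 ?_
  rw [Fin.prod_univ_two]
  rfl

theorem keyNeg_of (hI : InRegOf) (hP : PhiLe) : H828.KeyNeg := by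
  intro X Θ hΘ k v hsym hfix K hK hKc
  obtain ⟨c, M₀, C, hc, hM₀, hC, hk⟩ := key_bound hI hP X Θ hΘ k v hsym hfix K hK hKc
  refine ⟨c, M₀, 100 * C, hc, by linarith, by positivity, fun b hb l s hs' hM => ?_⟩
  have hk := hk b hb l s hs' hM
  have hy : 0 < 2 * (l + Real.log c) := by linarith
  have ey : pr k 0 0 (-zz l s) = (2 : ℝ) • Bd.y.vec k l s := by
    change _ = (2 : ℝ) • pr k 0 0 (-(zz l s) / 2)
    rw [H828.pr_smul]
    congr 1
    push_cast
    ring
  have ea : pr k 0 0 (-(Real.pi * Complex.I) * zz l s) = (-(2 * Real.pi)) • Bd.al.vec k l s := by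
    change _ = (-(2 * Real.pi)) • pr k 0 0 (zz l s * Complex.I / 2)
    rw [H828.pr_smul]
    congr 1
    push_cast
    ring
  have hpi : Real.pi ≤ 4 := Real.pi_le_four
  have hpi0 : 0 < Real.pi := Real.pi_pos
  have hv2 : ∀ β γ : Bd, |PhiF X Θ v (fam k b l s) ![β.vec k l s, γ.vec k l s]| ≤
      C * (β.cost (2 * (l + Real.log c)) * γ.cost (2 * (l + Real.log c))) := by
    intro β γ
    have h := hk ![β, γ]
    have e : (fun i => ((![β, γ] : Fin 2 → Bd) i).vec k l s) =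
        ![β.vec k l s, γ.vec k l s] := by
      funext i
      fin_cases i <;> rfl
    rw [e] at h
    exact h
  constructor
  · rw [ey, ea, phi_pair, norm_mul, Real.norm_eq_abs, Real.norm_eq_abs]
    have h := hv2 .y .al
    simp only [Bd.cost] at h
    have h3 : |2 * -(2 * Real.pi)| ≤ 16 := by
      rw [abs_le]; constructor <;> linarith
    have h4 : 0 ≤ C * ((2 * (l + Real.log c))⁻¹ * Real.sqrt (2 * (l + Real.log c))⁻¹) := by
      positivity
    calc |2 * -(2 * Real.pi)| * |PhiF X Θ v (fam k b l s) ![Bd.y.vec k l s, Bd.al.vec k l s]|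
        ≤ 16 * (C * ((2 * (l + Real.log c))⁻¹ * Real.sqrt (2 * (l + Real.log c))⁻¹)) :=
          mul_le_mul h3 h (abs_nonneg _) (by norm_num)
      _ ≤ 100 * (C * ((2 * (l + Real.log c))⁻¹ * Real.sqrt (2 * (l + Real.log c))⁻¹)) := by
          nlinarith
      _ = _ := by ring
  · intro w hw
    have h1 : (![pr k 0 0 (-(Real.pi * Complex.I) * zz l s), w] : Fin 2 → C6) =
        ![(-(2 * Real.pi)) • Bd.al.vec k l s, (1 : ℝ) • w] := by
      rw [ea, one_smul]
    rw [h1, phi_pair, norm_mul, Real.norm_eq_abs, Real.norm_eq_abs, mul_one]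
    set Φ := PhiF X Θ v (fam k b l s) with hΦ
    set u := Bd.al.vec k l s with hu
    have hlin : ∃ f : C6 →ₗ[ℝ] ℝ, ∀ w, Φ ![u, w] = f w := by
      refine ⟨(Φ.toContinuousMultilinearMap.toMultilinearMap).toLinearMap ![u, 0] 1, fun w => ?_⟩
      change Φ ![u, w] = Φ (Function.update ![u, 0] 1 w)
      congr 1
      funext i
      fin_cases i <;> rfl
    obtain ⟨f, hf⟩ := hlin
    have h2 : |f w| ≤ 10 * (C * Real.sqrt (2 * (l + Real.log c))⁻¹) * ‖w‖ := by
      have e : f w = ∑ a : Fin 5, ((bv k w a).re * f (bw k a 1) +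
          (bv k w a).im * f (bw k a Complex.I)) := by
        conv_lhs => rw [H828.sum_bw hw]
        rw [map_sum]
        refine Finset.sum_congr rfl fun a _ => ?_
        rw [map_add, map_smul, map_smul, smul_eq_mul, smul_eq_mul]
      have h3 : ∀ a, |f (bw k a 1)| ≤ C * Real.sqrt (2 * (l + Real.log c))⁻¹ := by
        intro a
        have h := hv2 .al (.re a)
        simp only [Bd.cost, mul_one] at h
        rw [← hf]
        exact h
      have h4 : ∀ a, |f (bw k a Complex.I)| ≤ C * Real.sqrt (2 * (l + Real.log c))⁻¹ := by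
        intro a
        have h := hv2 .al (.im a)
        simp only [Bd.cost, mul_one] at h
        rw [← hf]
        exact h
      rw [e]
      have h5 : ∀ a, |(bv k w a).re * f (bw k a 1) + (bv k w a).im * f (bw k a Complex.I)| ≤
          2 * (C * Real.sqrt (2 * (l + Real.log c))⁻¹) * ‖w‖ := by
        intro a
        have hr : |(bv k w a).re| ≤ ‖w‖ :=
          (Complex.abs_re_le_norm _).trans (H828.norm_bv_le k w a)
        have hi : |(bv k w a).im| ≤ ‖w‖ :=
          (Complex.abs_im_le_norm _).trans (H828.norm_bv_le k w a)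
        calc |(bv k w a).re * f (bw k a 1) + (bv k w a).im * f (bw k a Complex.I)|
            ≤ |(bv k w a).re * f (bw k a 1)| + |(bv k w a).im * f (bw k a Complex.I)| :=
              abs_add_le _ _
          _ = |(bv k w a).re| * |f (bw k a 1)| + |(bv k w a).im| * |f (bw k a Complex.I)| := by
              rw [abs_mul, abs_mul]
          _ ≤ ‖w‖ * (C * Real.sqrt (2 * (l + Real.log c))⁻¹) +
              ‖w‖ * (C * Real.sqrt (2 * (l + Real.log c))⁻¹) :=
              add_le_add (mul_le_mul hr (h3 a) (abs_nonneg _) (norm_nonneg _))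
                (mul_le_mul hi (h4 a) (abs_nonneg _) (norm_nonneg _))
          _ = _ := by ring
      calc |∑ a : Fin 5, ((bv k w a).re * f (bw k a 1) +
          (bv k w a).im * f (bw k a Complex.I))|
          ≤ ∑ a : Fin 5, |(bv k w a).re * f (bw k a 1) +
            (bv k w a).im * f (bw k a Complex.I)| := Finset.abs_sum_le_sum_abs _ _
        _ ≤ ∑ _a : Fin 5, 2 * (C * Real.sqrt (2 * (l + Real.log c))⁻¹) * ‖w‖ :=
            Finset.sum_le_sum fun a _ => h5 a
        _ = _ := by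
            rw [Finset.sum_const, Finset.card_univ, Fintype.card_fin, nsmul_eq_mul]
            push_cast
            ring
    rw [hf w]
    have h6 : |-(2 * Real.pi)| ≤ 8 := by
      rw [abs_le]; constructor <;> linarith
    have h7 : 0 ≤ C * Real.sqrt (2 * (l + Real.log c))⁻¹ * ‖w‖ := by positivity
    calc |-(2 * Real.pi)| * |f w| ≤ 8 * (10 * (C * Real.sqrt (2 * (l + Real.log c))⁻¹) * ‖w‖) :=
          mul_le_mul h6 h2 (abs_nonneg _) (by norm_num)
      _ ≤ _ := by nlinarith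

/-- **Row NEG from the two inputs.** -/
theorem negOf_of_inputs (hI : InRegOf) (hP : PhiLe) : NegOf := H828.negOf_of (keyNeg_of hI hP)

end Vale.Agent.P273.H879
end
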